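import Vale.Agent.P344.R2.H715.Fun3
import Vale.Agent.P344.R2.H715.Dirty

/-!
# The star
-/

set_option linter.unusedSectionVars false

namespace Vale.Agent.P344.R2.H527

open Matrix Vale.Agent.P344.R2.H715

theorem slide_cases {ι : Type} [Fintype ι] [DecidableEq ι] {S : Matrix ι ι ℂ} (h : Slide S) :
    S = 1 ∨ ∃ (β : Type) (_ : Fintype β) (_ : DecidableEq β),
      Eqv S (fromBlocks E 0 0 (1 : Matrix β β ℂ)) := by
  obtain ⟨k, hk, α, β, i1, i2, i3, i4, e, hα, rfl⟩ := h
  rcases Nat.le_one_iff_eq_zero_or_eq_one.1 hk with h0 | h0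
  · left
    rw [h0, Fintype.card_eq_zero_iff] at hα
    have h2 : core α β = 1 := by
      ext (⟨a, b⟩ | i) (⟨a', b'⟩ | j)
      · exact (hα.false a).elim
      · exact (hα.false a).elim
      · simp [core]
      · simp [core, Matrix.one_apply]
    rw [h2, Matrix.submatrix_one_equiv]
  · right
    refine ⟨β, i2, i4, ?_⟩
    have e1 : α ≃ Unit := Fintype.equivOfCardEq (by simpa [h0] using hα)
    have h1 : Eqv (tensor (1 : Matrix α α ℂ) E) E :=
      (Eqv.tensor ⟨e1, by rw [Matrix.submatrix_one_equiv]⟩ (Eqv.refl E)).trans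
        ((Eqv.tensor_comm _ _).trans (Eqv.tensor_unit E (1 : Matrix Unit Unit ℂ) (by simp)))
    exact Eqv.trans ⟨e, rfl⟩ (h1.sum (Eqv.refl _))

section word

variable {ι : Type} [Fintype ι] [DecidableEq ι] [Nonempty ι]

theorem cc_slide {S : Matrix ι ι ℂ} (h : Slide S) : cc S ≤ cc E := by
  rcases slide_cases h with h1 | ⟨β, i1, i2, h1⟩
  · rw [h1, cc_mono IsMono.one]
    exact cc_nonneg _
  · rw [h1.cc, cc_sum_one]

/-- A program with `r` steps costs at most `r` times the cost of `E`. -/
theorem cc_word {r : ℕ} {M : Matrix ι ι ℂ} (h : Word Slide r M) : cc M ≤ r * cc E := by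
  induction h with
  | mono hQ =>
    rw [cc_mono hQ]
    simp
  | step hQ hS _ ih =>
    refine (cc_mul_le _ _).trans ?_
    have h1 := cc_mul_le _ _ |>.trans (add_le_add (cc_mono hQ).le (cc_slide hS))
    push_cast
    linarith

end word

section inj

variable {ι κ : Type} [Fintype ι] [DecidableEq ι] [Nonempty ι] [Fintype κ] [DecidableEq κ]
  [Nonempty κ]

/-- A matrix that is the identity outside the image of `κ`. -/
theorem cc_of_inj (A : Matrix ι ι ℂ) (g : κ → ι) (hg : Function.Injective g)
    (h1 : ∀ x, x ∉ Set.range g → ∀ y, A x y = if x = y then 1 else 0)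
    (h2 : ∀ x, x ∉ Set.range g → ∀ y, A y x = if y = x then 1 else 0) :
    cc A = cc (A.submatrix g g) := by
  classical
  have h3 : Eqv (fromBlocks (A.submatrix g g) 0 0
      (1 : Matrix ((Set.range g)ᶜ : Set ι) ((Set.range g)ᶜ : Set ι) ℂ)) A := by
    refine ⟨(Equiv.sumCongr (Equiv.ofInjective g hg) (Equiv.refl _)).trans
      (Equiv.Set.sumCompl (Set.range g)), ?_⟩
    ext (a | ⟨x, hx⟩) (b | ⟨y, hy⟩)
    · simp
    · have hne : g a ≠ y := fun h => hy ⟨a, h⟩
      simp [h2 y hy, hne]
    · have hne : x ≠ g b := fun h => hx ⟨b, h.symm⟩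
      simp [h1 x hx, hne]
    · simp [h1 x hx, Matrix.one_apply]
  rw [← h3.cc, cc_sum_one]

end inj

/-! ### The zeta transform, by blocks -/

/-- The subsets of `{0, …, n-1}`: those with `0`, and those without. -/
def W : ℕ → Type
  | 0 => Unit
  | n + 1 => W n ⊕ W n

instance W.fintype : (n : ℕ) → Fintype (W n)
  | 0 => (inferInstance : Fintype Unit)
  | n + 1 => letI := W.fintype n; (inferInstance : Fintype (W n ⊕ W n))

instance W.decEq : (n : ℕ) → DecidableEq (W n)
  | 0 => (inferInstance : DecidableEq Unit)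
  | n + 1 => letI := W.decEq n; (inferInstance : DecidableEq (W n ⊕ W n))

instance W.nonempty : (n : ℕ) → Nonempty (W n)
  | 0 => (inferInstance : Nonempty Unit)
  | n + 1 => letI := W.nonempty n; (inferInstance : Nonempty (W n ⊕ W n))

theorem W.card : (n : ℕ) → Fintype.card (W n) = 2 ^ n
  | 0 => rfl
  | n + 1 => by
    have h := W.card n
    have h1 : Fintype.card (W (n + 1)) = Fintype.card (W n ⊕ W n) := rfl
    rw [h1, Fintype.card_sum, h]
    ring

/-- The empty set. -/
def emp : (n : ℕ) → W n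
  | 0 => ()
  | n + 1 => (Sum.inr (emp n) : W n ⊕ W n)

/-- The zeta transform. -/
def Zm : (n : ℕ) → Matrix (W n) (W n) ℂ
  | 0 => (1 : Matrix Unit Unit ℂ)
  | n + 1 => (fromBlocks (Zm n) (Zm n) 0 (Zm n) : Matrix (W n ⊕ W n) (W n ⊕ W n) ℂ)

/-- Only the entry at the empty set. -/
def single (n : ℕ) : Matrix (W n) (W n) ℂ := Matrix.of fun x y => if x = emp n ∧ y = emp n then 1 else 0

/-- The singletons receive the empty set. -/
def Sm : (n : ℕ) → Matrix (W n) (W n) ℂ
  | 0 => (1 : Matrix Unit Unit ℂ)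
  | n + 1 => (fromBlocks 1 (single n) 0 (Sm n) : Matrix (W n ⊕ W n) (W n ⊕ W n) ℂ)

/-- The sets with at least two elements receive the set without its least element. -/
def Pm : (n : ℕ) → Matrix (W n) (W n) ℂ
  | 0 => (1 : Matrix Unit Unit ℂ)
  | n + 1 => (fromBlocks 1 (1 - single n) 0 (Pm n) : Matrix (W n ⊕ W n) (W n ⊕ W n) ℂ)

/-- The zeta transform in the classes of sets with the same least element. -/
def Qm : (n : ℕ) → Matrix (W n) (W n) ℂ
  | 0 => (1 : Matrix Unit Unit ℂ)
  | n + 1 => (fromBlocks (Zm n) 0 0 (Qm n) : Matrix (W n ⊕ W n) (W n ⊕ W n) ℂ)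

theorem Pm_emp : (n : ℕ) → ∀ y, Pm n (emp n) y = if y = emp n then 1 else 0
  | 0 => fun y => by
    cases y
    exact Matrix.one_apply_eq ()
  | n + 1 => fun y => by
    have ih := Pm_emp n
    rcases y with y | y
    · have h1 : Pm (n + 1) (emp (n + 1)) (Sum.inl y : W n ⊕ W n) = 0 := rfl
      have h2 : (Sum.inl y : W n ⊕ W n) ≠ Sum.inr (emp n) := Sum.inl_ne_inr
      rw [h1]
      exact (if_neg h2).symm
    · have h1 : Pm (n + 1) (emp (n + 1)) (Sum.inr y : W n ⊕ W n) = Pm n (emp n) y := rfl
      rw [h1, ih]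
      by_cases hy : y = emp n
      · rw [if_pos hy]
        subst hy
        exact (if_pos rfl).symm
      · rw [if_neg hy]
        have h2 : (Sum.inr y : W n ⊕ W n) ≠ Sum.inr (emp n) := fun h => hy (Sum.inr_injective h)
        exact (if_neg h2).symm

theorem single_mul_Pm (n : ℕ) : single n * Pm n = single n := by
  ext x y
  rw [Matrix.mul_apply]
  simp only [single, Matrix.of_apply]
  rw [Finset.sum_eq_single (emp n)]
  · rw [Pm_emp]
    by_cases hx : x = emp n <;> by_cases hy : y = emp n <;> simp [hx, hy]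
  · intro z _ hz
    simp [hz]
  · intro h
    exact absurd (Finset.mem_univ _) h

theorem Zm_eq : (n : ℕ) → Zm n = Qm n * Sm n * Pm n
  | 0 => by
    have h1 : (1 : Matrix Unit Unit ℂ) = 1 * 1 * 1 := by simp
    exact h1
  | n + 1 => by
    have ih := Zm_eq n
    have h1 : (fromBlocks (Zm n) (Zm n) 0 (Zm n) : Matrix (W n ⊕ W n) (W n ⊕ W n) ℂ) =
        (fromBlocks (Zm n) 0 0 (Qm n) : Matrix (W n ⊕ W n) (W n ⊕ W n) ℂ) *
        (fromBlocks 1 (single n) 0 (Sm n) : Matrix (W n ⊕ W n) (W n ⊕ W n) ℂ) *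
        (fromBlocks 1 (1 - single n) 0 (Pm n) : Matrix (W n ⊕ W n) (W n ⊕ W n) ℂ) := by
      rw [fromBlocks_multiply, fromBlocks_multiply]
      simp only [Matrix.mul_one, Matrix.zero_mul, Matrix.mul_zero, add_zero, zero_add]
      rw [← ih, Matrix.mul_assoc, single_mul_Pm, Matrix.mul_sub, Matrix.mul_one, sub_add_cancel]
    exact h1

/-! ### Costs -/

theorem eqv_Zm : (n : ℕ) → Eqv (Zm n) (tpow E n)
  | 0 => (tpow_zero E).symm
  | n + 1 => by
    have ih := eqv_Zm n
    have h1 : Eqv (fromBlocks (Zm n) (Zm n) 0 (Zm n)) (tensor E (Zm n)) := by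
      refine Eqv.symm ⟨Equiv.boolProdEquivSum _, ?_⟩
      ext ⟨a, x⟩ ⟨b, y⟩
      rcases a <;> rcases b <;> simp
    exact h1.trans (((Eqv.refl E).tensor ih).trans (tpow_succ E n).symm)

theorem cc_Zm (n : ℕ) : cc (Zm n) = n * 2 ^ (n - 1) * cc E := by
  rw [(eqv_Zm n).cc]
  rcases n with _ | n
  · rw [(tpow_zero E).cc, cc_mono IsMono.one]
    simp
  · rw [cc_tpow]
    simp

/-- The costs of the three factors. -/
theorem cc_Qm_le : (n : ℕ) → cc (Qm n) ≤ ((n : ℝ) * 2 ^ (n - 1) - 2 ^ n + 1) * cc E
  | 0 => by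
    have h1 : cc (Qm 0) = 0 := cc_mono (ι := Unit) IsMono.one
    rw [h1]
    simp
  | n + 1 => by
    have ih := cc_Qm_le n
    have h1 : cc (Qm (n + 1)) ≤ cc (Zm n) + cc (Qm n) := cc_sum_le (Zm n) (Qm n)
    rw [cc_Zm] at h1
    refine h1.trans ((add_le_add le_rfl ih).trans (le_of_eq ?_))
    rcases n with _ | n
    · norm_num
    · simp only [Nat.add_sub_cancel]
      push_cast
      ring

theorem cc_Pm_le : (n : ℕ) → cc (Pm n) ≤ ((2 : ℝ) ^ n - 1 - n) * cc E
  | 0 => by
    have h1 : cc (Pm 0) = 0 := cc_mono (ι := Unit) IsMono.one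
    rw [h1]
    simp
  | n + 1 => by
    have ih := cc_Pm_le n
    have h1 : (fromBlocks 1 (1 - single n) 0 (Pm n) : Matrix (W n ⊕ W n) (W n ⊕ W n) ℂ) =
        (fromBlocks 1 0 0 (Pm n) : Matrix (W n ⊕ W n) (W n ⊕ W n) ℂ) *
        (fromBlocks 1 (1 - single n) 0 1 : Matrix (W n ⊕ W n) (W n ⊕ W n) ℂ) := by
      rw [fromBlocks_multiply]
      simp
    have h2 : Word Slide (2 ^ n - 1)
        (fromBlocks 1 (1 - single n) 0 1 : Matrix (W n ⊕ W n) (W n ⊕ W n) ℂ) := by
      have h3 := word_rows (fun z : W n ⊕ W n => Sum.elim Sum.inr Sum.inr z)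
        ((Finset.univ.erase (emp n)).map Function.Embedding.inl) (by
          intro z hz
          rw [Finset.mem_map] at hz
          obtain ⟨a, -, rfl⟩ := hz
          simp)
      rw [Finset.card_map, Finset.card_erase_of_mem (Finset.mem_univ _), Finset.card_univ,
        W.card] at h3
      convert h3 using 1
      ext (x | x) (y | y)
      · simp [Matrix.one_apply]
      · by_cases hx : x = emp n
        · by_cases hy : y = emp n
          · simp [single, hx, hy]
          · simp [single, hx, hy, Ne.symm hy]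
        · simp [single, hx, Matrix.one_apply]
      · simp
      · simp [Matrix.one_apply]
    have h4 : cc (Pm (n + 1)) ≤ cc (Pm n) + cc (fromBlocks 1 (1 - single n) 0 1 :
        Matrix (W n ⊕ W n) (W n ⊕ W n) ℂ) := by
      have h5 : cc (Pm (n + 1)) = cc (fromBlocks 1 (1 - single n) 0 (Pm n) :
        Matrix (W n ⊕ W n) (W n ⊕ W n) ℂ) := rfl
      rw [h5, h1]
      refine (cc_mul_le _ _).trans ?_
      rw [cc_one_sum]
    have h6 := cc_word h2
    have h7 : ((2 ^ n - 1 : ℕ) : ℝ) = 2 ^ n - 1 := by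
      rw [Nat.cast_sub Nat.one_le_two_pow]
      push_cast
      ring
    rw [h7] at h6
    have h8 : ((2 : ℝ) ^ n - 1 - n) * cc E + (2 ^ n - 1) * cc E =
        ((2 : ℝ) ^ (n + 1) - 1 - (n + 1 : ℕ)) * cc E := by
      push_cast
      ring
    linarith

/-- The star in the family of all sets is expensive. -/
theorem le_cc_Sm (n : ℕ) : n * cc E ≤ cc (Sm n) := by
  have h1 : cc (Zm n) ≤ cc (Qm n) + cc (Sm n) + cc (Pm n) := by
    rw [Zm_eq]
    exact (cc_mul_le _ _).trans (add_le_add (cc_mul_le _ _) le_rfl)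
  rw [cc_Zm] at h1
  have h2 := cc_Qm_le n
  have h3 := cc_Pm_le n
  linarith

/-! ### The star -/

/-- The star: all cells but one receive that one. -/
def St (n : ℕ) : Matrix (Option (Fin n)) (Option (Fin n)) ℂ :=
  Matrix.of fun i j => if i = j ∨ j = none then 1 else 0

/-- The empty set and the singletons. -/
def sing : (n : ℕ) → Option (Fin n) → W n
  | 0 => fun _ => ()
  | n + 1 => fun i => match i with
    | none => (Sum.inr (emp n) : W n ⊕ W n)
    | some i => Fin.cases (Sum.inl (emp n) : W n ⊕ W n)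
        (fun j => (Sum.inr (sing n (some j)) : W n ⊕ W n)) i

theorem sing_none : (n : ℕ) → sing n none = emp n
  | 0 => rfl
  | _ + 1 => rfl

theorem sing_zero (n : ℕ) : sing (n + 1) (some 0) = (Sum.inl (emp n) : W n ⊕ W n) := rfl

theorem sing_succ (n : ℕ) (j : Fin n) :
    sing (n + 1) (some j.succ) = (Sum.inr (sing n (some j)) : W n ⊕ W n) := rfl

theorem sing_ne : (n : ℕ) → ∀ i, sing n (some i) ≠ emp n
  | 0 => fun i => i.elim0
  | n + 1 => fun i => by
    have ih := sing_ne n
    induction i using Fin.cases with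
    | zero => exact (Sum.inl_ne_inr : (Sum.inl (emp n) : W n ⊕ W n) ≠ Sum.inr (emp n))
    | succ j => exact fun h => ih j (Sum.inr_injective (α := W n) h)

theorem sing_some_inj : (n : ℕ) → ∀ i j, sing n (some i) = sing n (some j) → i = j
  | 0 => fun i => i.elim0
  | n + 1 => fun i j => by
    have ih := sing_some_inj n
    induction i using Fin.cases with
    | zero =>
      induction j using Fin.cases with
      | zero => exact fun _ => rfl
      | succ j => exact fun h => absurd h Sum.inl_ne_inr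
    | succ i =>
      induction j using Fin.cases with
      | zero => exact fun h => absurd h Sum.inr_ne_inl
      | succ j =>
        intro h
        rw [ih i j (Sum.inr_injective (α := W n) h)]

theorem sing_inj (n : ℕ) : Function.Injective (sing n) := by
  rintro (_ | i) (_ | j) h
  · rfl
  · rw [sing_none] at h
    exact absurd h.symm (sing_ne n j)
  · rw [sing_none] at h
    exact absurd h (sing_ne n i)
  · rw [sing_some_inj n i j h]

theorem Sm_diag : (n : ℕ) → ∀ x, Sm n x x = 1
  | 0 => fun x => by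
    cases x
    exact Matrix.one_apply_eq ()
  | n + 1 => fun x => by
    have ih := Sm_diag n
    rcases x with x | x
    · exact Matrix.one_apply_eq (α := ℂ) x
    · exact ih x

theorem single_apply (n : ℕ) (x y : W n) : single n x y = if x = emp n ∧ y = emp n then 1 else 0 :=
  rfl

theorem Sm_star : (n : ℕ) → ∀ i, Sm n (sing n (some i)) (emp n) = 1
  | 0 => fun i => i.elim0
  | n + 1 => fun i => by
    have ih := Sm_star n
    induction i using Fin.cases with
    | zero =>
      have h1 : single n (emp n) (emp n) = 1 := by simp [single_apply]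
      exact h1
    | succ j => exact ih j

theorem Sm_zero : (n : ℕ) → ∀ x y, x ≠ y → (y = emp n → ∀ i, x ≠ sing n (some i)) →
    Sm n x y = 0
  | 0 => fun x y h _ => absurd (show x = y from (Subsingleton.elim (α := Unit) x y)) h
  | n + 1 => fun x y h h' => by
    have ih := Sm_zero n
    rcases x with x | x <;> rcases y with y | y
    · have h1 : x ≠ y := fun e => h (congrArg (Sum.inl (β := W n)) e)
      exact Matrix.one_apply_ne (α := ℂ) h1
    · have h1 : single n x y = 0 := by
        rw [single_apply, if_neg]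
        rintro ⟨hx, hy⟩
        exact h' (congrArg (Sum.inr (α := W n)) hy) 0 (congrArg (Sum.inl (β := W n)) hx)
      exact h1
    · rfl
    · exact ih x y (fun e => h (congrArg (Sum.inr (α := W n)) e)) fun hy i hx =>
        h' (congrArg (Sum.inr (α := W n)) hy) i.succ (congrArg (Sum.inr (α := W n)) hx)

/-- The star in the family of all sets is the star. -/
theorem cc_Sm (n : ℕ) : cc (Sm n) = cc (St n) := by
  have key : ∀ x y, (x ∉ Set.range (sing n) ∨ y ∉ Set.range (sing n)) →
      Sm n x y = if x = y then 1 else 0 := by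
    intro x y hxy
    by_cases h : x = y
    · rw [if_pos h, h, Sm_diag]
    · rw [if_neg h]
      refine Sm_zero n x y h fun hy i hx => ?_
      rcases hxy with h1 | h1
      · exact h1 ⟨some i, hx.symm⟩
      · exact h1 ⟨none, (sing_none n).trans hy.symm⟩
  rw [cc_of_inj (Sm n) (sing n) (sing_inj n) (fun x hx y => key x y (Or.inl hx))
    (fun x hx y => key y x (Or.inr hx))]
  congr 1
  ext i j
  rw [Matrix.submatrix_apply]
  simp only [St, Matrix.of_apply]
  by_cases hij : i = j
  · rw [if_pos (Or.inl hij), hij, Sm_diag]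
  · rcases j with _ | j
    · rcases i with _ | i
      · exact absurd rfl hij
      · rw [if_pos (Or.inr rfl), sing_none, Sm_star]
    · rw [if_neg (by simp [hij])]
      refine Sm_zero n _ _ (fun h => hij (sing_inj n h)) fun h => absurd h (sing_ne n j)

/-- The star is expensive. -/
theorem le_cc_St (n : ℕ) : n * cc E ≤ cc (St n) := by
  rw [← cc_Sm]
  exact le_cc_Sm n

end Vale.Agent.P344.R2.H527
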