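import Vale.Agent.P344.R2.H288.L4b
import Vale.Agent.P344.R2.H822.Bridge
import Vale.Agent.P344.R2.H527.Star

/-!
# The two forms of the four family map
-/

set_option linter.unusedSectionVars false

namespace Vale.Agent.P344.R2.H527

open Matrix Vale.Agent.P344.R2.H715 Vale.Agent.P344.R2.H288 Vale.Agent.P344.R2.H822

section gen

variable {V : Type} [Fintype V] [DecidableEq V] {h m : ℕ}
  {ω : Wr (Fin h × Bool) (Fin m) → V}

theorem sum_tr (hω : Function.Injective ω) (s : T h → Bool × Bool × Bool → Fin m → V)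
    (A B C : Fin h × Bool) (D : Fin m) (y : V) :
    (∑ d : Fin m, ∑ i : Bool × Bool × Bool, tr (y₃ ω i d) (fun k => s k i d)) (ω (.y A B C D)) y =
      if s (A.1, B.1, C.1) (A.2, B.2, C.2) D = y then 1 else 0 := by
  have h1 : ∀ (d : Fin m) (i : Bool × Bool × Bool) (k : T h),
      y₃ ω i d k = ω (.y A B C D) ↔
        (d = D ∧ i = (A.2, B.2, C.2) ∧ k = (A.1, B.1, C.1)) := by
    rintro d ⟨i1, i2, i3⟩ ⟨k1, k2, k3⟩
    obtain ⟨A1, A2⟩ := A
    obtain ⟨B1, B2⟩ := B
    obtain ⟨C1, C2⟩ := C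
    unfold y₃
    rw [hω.eq_iff]
    simp only [Wr.y.injEq, Prod.mk.injEq]
    tauto
  simp only [Matrix.sum_apply, tr, Matrix.single_apply]
  rw [Finset.sum_eq_single D]
  · rw [Finset.sum_eq_single (A.2, B.2, C.2)]
    · rw [Finset.sum_eq_single (A.1, B.1, C.1)]
      · simp only [(h1 D (A.2, B.2, C.2) (A.1, B.1, C.1)).2 ⟨rfl, rfl, rfl⟩, true_and]
      · intro k _ hk
        rw [if_neg]
        rintro ⟨h2, -⟩
        exact hk ((h1 _ _ _).1 h2).2.2
      · intro h2
        exact absurd (Finset.mem_univ _) h2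
    · intro i _ hi
      refine Finset.sum_eq_zero fun k _ => ?_
      rw [if_neg]
      rintro ⟨h2, -⟩
      exact hi ((h1 _ _ _).1 h2).2.1
    · intro h2
      exact absurd (Finset.mem_univ _) h2
  · intro d _ hd
    refine Finset.sum_eq_zero fun i _ => Finset.sum_eq_zero fun k _ => ?_
    rw [if_neg]
    rintro ⟨h2, -⟩
    exact hd ((h1 _ _ _).1 h2).1
  · intro h2
    exact absurd (Finset.mem_univ _) h2

theorem tot_apply (hω : Function.Injective ω) (A B C : Fin h × Bool) (D : Fin m) (y : V) :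
    tot ω (ω (.y A B C D)) y = (if ω (.u B C D) = y then 1 else 0) +
      (if ω (.v A C D) = y then 1 else 0) + (if ω (.w A B D) = y then 1 else 0) +
      (if ω (.x A B C) = y then 1 else 0) := by
  have h1 : tot ω =
      ∑ d : Fin m, ∑ i : Bool × Bool × Bool, tr (y₃ ω i d)
        (fun k => ω (.u (k.2.1, i.2.1) (k.2.2, i.2.2) d)) +
      ∑ d : Fin m, ∑ i : Bool × Bool × Bool, tr (y₃ ω i d)
        (fun k => ω (.v (k.1, i.1) (k.2.2, i.2.2) d)) +
      ∑ d : Fin m, ∑ i : Bool × Bool × Bool, tr (y₃ ω i d)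
        (fun k => ω (.w (k.1, i.1) (k.2.1, i.2.1) d)) +
      ∑ d : Fin m, ∑ i : Bool × Bool × Bool, tr (y₃ ω i d)
        (fun k => ω (.x (k.1, i.1) (k.2.1, i.2.1) (k.2.2, i.2.2))) := by
    unfold tot full
    simp only [Finset.sum_add_distrib]
    rfl
  rw [h1, Matrix.add_apply, Matrix.add_apply, Matrix.add_apply,
    sum_tr hω (fun k i d => ω (.u (k.2.1, i.2.1) (k.2.2, i.2.2) d)),
    sum_tr hω (fun k i d => ω (.v (k.1, i.1) (k.2.2, i.2.2) d)),
    sum_tr hω (fun k i d => ω (.w (k.1, i.1) (k.2.1, i.2.1) d)),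
    sum_tr hω (fun k i d => ω (.x (k.1, i.1) (k.2.1, i.2.1) (k.2.2, i.2.2)))]

theorem oneWay_tot [Nonempty V] (hω : Function.Injective ω) : OneWay (isY ω) (tot ω) :=
  OneWay.sum _ _ fun _ => OneWay.sum _ _ fun _ => oneWay_full hω _ _

end gen

section bridge

variable {h : ℕ}

/-- The position of a cell. -/
def pos4 (e : Fin h × Bool → Fin (2 * h)) : Wr (Fin h × Bool) (Fin (2 * h)) → Tup (2 * h)
  | .u b c d => ![none, some (e b), some (e c), some d]
  | .v a c d => ![some (e a), none, some (e c), some d]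
  | .w a b d => ![some (e a), some (e b), none, some d]
  | .x a b c => ![some (e a), some (e b), some (e c), none]
  | .y a b c d => ![some (e a), some (e b), some (e c), some d]

theorem pos4_injective {e : Fin h × Bool → Fin (2 * h)} (he : Function.Injective e) :
    Function.Injective (pos4 e) := by
  rintro (⟨b, c, d⟩ | ⟨a, c, d⟩ | ⟨a, b, d⟩ | ⟨a, b, c⟩ | ⟨a, b, c, d⟩)
    (⟨b', c', d'⟩ | ⟨a', c', d'⟩ | ⟨a', b', d'⟩ | ⟨a', b', c'⟩ | ⟨a', b', c', d'⟩) h <;>
  · rw [tup_eq] at h
    simp [pos4, he.eq_iff] at h ⊢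
    try tauto

theorem one_add_tot (e : Fin h × Bool ≃ Fin (2 * h)) : 1 + tot (pos4 e) = L4 (2 * h) := by
  classical
  have hω := pos4_injective e.injective
  rw [L4_eq]
  congr 1
  ext x y
  by_cases hx : Low x
  · have h1 : tot (pos4 e) x y = 0 := by
      by_contra h1
      obtain ⟨⟨a, b, c, d, h2⟩, -⟩ := oneWay_tot hω x y h1
      obtain ⟨i, hi⟩ := hx
      rw [h2] at hi
      fin_cases i <;> simp [pos4] at hi
    have h2 : NL (2 * h) x y = 0 := by
      by_contra h2
      exact (NL_ne h2).1 hx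
    rw [h1, h2]
  · obtain ⟨a, b, c, d, rfl⟩ := (not_low_iff x).1 hx
    have h0 : (![some a, some b, some c, some d] : Tup (2 * h)) =
        pos4 e (.y (e.symm a) (e.symm b) (e.symm c) d) := by
      simp [pos4]
    rw [NL_apply]
    simp only [hx, not_false_eq_true, true_and, ers_iff]
    rw [h0, tot_apply hω]
    simp only [pos4, Equiv.apply_symm_apply]
    simp only [eq_comm (b := y)]
    by_cases h1 : y = ![none, some b, some c, some d]
    · rw [h1]
      simp
    · by_cases h2 : y = ![some a, none, some c, some d]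
      · rw [h2]
        simp
      · by_cases h3 : y = ![some a, some b, none, some d]
        · rw [h3]
          simp
        · by_cases h4 : y = ![some a, some b, some c, none]
          · rw [h4]
            simp
          · simp [h1, h2, h3, h4]

/-- The saving. -/
theorem cc_L4_le (hh : 0 < h) :
    cc (L4 (2 * h)) ≤ (62 * (h : ℝ) ^ 4 + 64 * (h : ℝ) ^ 3) * cc E := by
  have e : Fin h × Bool ≃ Fin (2 * h) := Fintype.equivOfCardEq (by simp [mul_comm])
  have h1 := cc_tot (pos4_injective e.injective) (show 0 < 2 * h by omega)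
  rw [one_add_tot] at h1
  refine h1.trans (le_of_eq ?_)
  push_cast
  ring

/-- `E` is free. -/
theorem cc_E : cc E = 0 := by
  have h1 := cc_L4_le (h := 1000) (by norm_num)
  have h2 := cc_star4_le (2 * 1000)
  have hE := cc_nonneg E
  refine cc_E_eq_zero (n := 2 * 1000) (by norm_num)
    (x := 62 * (1000 : ℝ) ^ 4 + 64 * (1000 : ℝ) ^ 3 + 192 * ((2 * 1000 : ℕ) + 1 : ℝ) ^ 3)
    ?_ ?_ ?_
  · norm_num
  · exact le_cc_St (2 * 1000)
  · refine h2.trans ?_
    push_cast at h1 ⊢
    linarith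

end bridge

end Vale.Agent.P344.R2.H527
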