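import Vale.Agent.P344.R2.H715.Cheap

/-!
# One short in-place program gives a power saving

If some in-place program computes `E^{⊗ m}` with fewer than `m 2^{m-1}` steps, then the circuits
for `E^{⊗ K}` need only `O(K^α)` gates per point, with some `α < 1`.
-/

set_option linter.unusedSectionVars false

namespace Vale.Agent.P344.R2.H527

open Matrix Vale.Agent.P344.R2.H715

/-- `Rate`, for the powers up to `J`. -/
def RateTo (J : ℕ) (a b : ℝ) : Prop :=
  ∀ j : ℕ, j ≤ J → ∃ s : ℕ, Cost (tpow E j) s ∧ (s : ℝ) ≤ 2 ^ j * (a * j + b)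

/-- `Cheap`, together with up to `J` further factors. -/
def CheapTo (J : ℕ) (a b x : ℝ) {ι : Type} [Fintype ι] (S : Matrix ι ι ℂ) : Prop :=
  ∀ j : ℕ, j ≤ J → ∃ s : ℕ, Cost (tensor (tpow E j) S) s ∧
    (s : ℝ) ≤ 2 ^ j * Fintype.card ι * (a * (j + x) + b)

section cheap

variable {ι κ : Type} [Fintype ι] [Fintype κ] {a b x y : ℝ} {J : ℕ}

theorem CheapTo.eqv {S : Matrix ι ι ℂ} {T : Matrix κ κ ℂ} (h : Eqv S T)
    (hT : CheapTo J a b x T) : CheapTo J a b x S := by
  intro j hj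
  obtain ⟨s, hs, hb⟩ := hT j hj
  refine ⟨s, ((Eqv.refl _).tensor h).cost hs, ?_⟩
  rw [h.card]
  exact hb

theorem CheapTo.unit (h : RateTo J a b) : CheapTo J a b 0 (1 : Matrix Unit Unit ℂ) := by
  intro j hj
  obtain ⟨s, hs, hb⟩ := h j hj
  refine ⟨s, (Eqv.tensor_unit _ _ (by simp)).cost hs, ?_⟩
  simpa using hb

theorem CheapTo.cost {S : Matrix ι ι ℂ} (h : CheapTo J a b x S) :
    ∃ s : ℕ, Cost S s ∧ (s : ℝ) ≤ Fintype.card ι * (a * x + b) := by
  obtain ⟨s, hs, hb⟩ := h 0 (Nat.zero_le _)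
  have h1 : Eqv S (tensor (tpow E 0) S) := by
    have h2 := (tpow_zero E).tensor (Eqv.refl S)
    exact (h2.trans ((Eqv.tensor_comm _ _).trans
      (Eqv.tensor_unit S (1 : Matrix Unit Unit ℂ) (by simp)))).symm
  refine ⟨s, h1.cost hs, hb.trans (le_of_eq ?_)⟩
  simp

theorem CheapTo.tensor {S : Matrix ι ι ℂ} {T : Matrix κ κ ℂ} {k : ℕ} (hS : IsMatch k S)
    (hk : 2 * (k : ℝ) ≤ x * Fintype.card ι) (ha : 0 ≤ a) (hT : CheapTo (J + 1) a b y T) :
    CheapTo J a b (x + y) (tensor S T) := by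
  obtain ⟨α, β, i1, i2, i3, i4, e, hα, rfl⟩ := hS
  intro j hj
  obtain ⟨s1, hs1, hb1⟩ := hT (j + 1) (by omega)
  obtain ⟨s2, hs2, hb2⟩ := hT j (by omega)
  have h1 : Eqv (H715.tensor (tpow E j) (H715.tensor ((core α β).submatrix e e) T))
      (H715.tensor (tpow E j) (H715.tensor (core α β) T)) :=
    (Eqv.refl _).tensor (Eqv.tensor ⟨e, rfl⟩ (Eqv.refl T))
  have h2 : Cost (H715.tensor (1 : Matrix α α ℂ) (H715.tensor (H715.tensor E (tpow E j)) T))
      (Fintype.card α * s1) :=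
    (((tpow_succ E j).symm.tensor (Eqv.refl T)).cost hs1).tensor_one
  have h3 : Cost (H715.tensor (1 : Matrix β β ℂ) (H715.tensor (tpow E j) T))
      (Fintype.card β * s2) := hs2.tensor_one
  refine ⟨Fintype.card α * s1 + Fintype.card β * s2,
    (h1.trans (split_core _ _)).cost (h2.sum h3), ?_⟩
  have hcard : Fintype.card ι = Fintype.card α * 2 + Fintype.card β := by
    rw [Fintype.card_congr e]
    simp
  have hcard' : (Fintype.card ι : ℝ) = k * 2 + Fintype.card β := by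
    rw [hcard, hα]
    push_cast
    ring
  rw [hα]
  rw [Fintype.card_prod]
  push_cast at hb1 hb2 ⊢
  have e1 : (k : ℝ) * s1 ≤ k * (2 ^ (j + 1) * Fintype.card κ * (a * (j + 1 + y) + b)) :=
    mul_le_mul_of_nonneg_left hb1 (by positivity)
  have e2 : (Fintype.card β : ℝ) * s2 ≤
      Fintype.card β * (2 ^ j * Fintype.card κ * (a * (j + y) + b)) :=
    mul_le_mul_of_nonneg_left hb2 (by positivity)
  have e3 : 2 ^ j * (Fintype.card κ : ℝ) * a * (2 * k) ≤
      2 ^ j * (Fintype.card κ : ℝ) * a * (x * Fintype.card ι) :=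
    mul_le_mul_of_nonneg_left hk (by positivity)
  calc (k : ℝ) * s1 + Fintype.card β * s2
      ≤ k * (2 ^ (j + 1) * Fintype.card κ * (a * (j + 1 + y) + b)) +
        Fintype.card β * (2 ^ j * Fintype.card κ * (a * (j + y) + b)) := add_le_add e1 e2
    _ = 2 ^ j * Fintype.card κ * ((k * 2 + Fintype.card β) * (a * (j + y) + b)) +
        2 ^ j * (Fintype.card κ : ℝ) * a * (2 * k) := by rw [pow_succ]; ring
    _ ≤ 2 ^ j * Fintype.card κ * ((k * 2 + Fintype.card β) * (a * (j + y) + b)) +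
        2 ^ j * (Fintype.card κ : ℝ) * a * (x * Fintype.card ι) := by linarith
    _ = 2 ^ j * (Fintype.card ι * Fintype.card κ) * (a * (j + (x + y)) + b) := by
      rw [← hcard']; ring

theorem CheapTo.tpow {S : Matrix ι ι ℂ} {k : ℕ} (hS : IsMatch k S)
    (hk : 2 * (k : ℝ) ≤ x * Fintype.card ι) (ha : 0 ≤ a) (K : ℕ) : ∀ J : ℕ,
    RateTo (J + K) a b → CheapTo J a b (K * x) (H715.tpow S K) := by
  induction K with
  | zero =>
    intro J h
    rw [Nat.cast_zero, zero_mul]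
    exact (CheapTo.unit h).eqv (tpow_zero S)
  | succ K ih =>
    intro J h
    have h0 : CheapTo (J + 1) a b (K * x) (H715.tpow S K) :=
      ih (J + 1) (by rwa [show J + 1 + K = J + (K + 1) by omega])
    have h1 := (CheapTo.tensor hS hk ha h0).eqv (tpow_succ S K)
    rw [show ((K + 1 : ℕ) : ℝ) * x = x + K * x by push_cast; ring]
    exact h1

/-- The cost of the powers of a word. -/
theorem cost_tpow [DecidableEq ι] {r : ℕ} {M : Matrix ι ι ℂ} (h : Word Slide r M)
    (hι : 0 < Fintype.card ι) (ha : 0 ≤ a) (K : ℕ) (hr : RateTo K a b) :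
    ∃ s : ℕ, Cost (H715.tpow M K) s ∧ (s : ℝ) ≤ Fintype.card ι ^ K *
      (r * (a * (K * (2 / Fintype.card ι)) + b) + (r + 1)) := by
  have hι' : (0 : ℝ) < Fintype.card ι := by exact_mod_cast hι
  have h1 : Word (fun S => ∃ s : ℕ, Cost S s ∧
      (s : ℝ) ≤ Fintype.card ι ^ K * (a * (K * (2 / Fintype.card ι)) + b)) r
      (H715.tpow M K) := by
    refine h.map (fun M => H715.tpow M K) (fun A B => ?_) (fun Q hQ => ?_) fun S hS => ?_
    · exact tprod_mul (fun _ => A) fun _ => B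
    · exact IsMono.tprod fun _ => hQ
    · obtain ⟨k, hk, hS⟩ := hS
      have hx : 2 * (k : ℝ) ≤ 2 / Fintype.card ι * Fintype.card ι := by
        rw [div_mul_cancel₀ _ hι'.ne']
        have : (k : ℝ) ≤ 1 := by exact_mod_cast hk
        linarith
      obtain ⟨s, hs, hb⟩ := (CheapTo.tpow hS hx ha K 0 (by rwa [Nat.zero_add])).cost
      refine ⟨s, hs, ?_⟩
      simpa using hb
  obtain ⟨s, hs, hb⟩ := h1.cost
  refine ⟨s, hs, hb.trans (le_of_eq ?_)⟩
  simp only [Fintype.card_pi, Finset.prod_const, Finset.card_univ, Fintype.card_fin]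
  push_cast
  ring

end cheap

/-! ### The power saving -/

theorem zr_zero : zr 0 = 0 := by
  refine le_antisymm ?_ (zr_nonneg 0)
  exact zr_le (x := 0) ((tpow_zero E).cost Cost.one) (by simp)

theorem zr_le_mul (n : ℕ) : zr n ≤ n * zr 1 := by
  have h := zr_subadditive.apply_mul_add_le n 1 0
  rw [zr_zero, mul_one, add_zero, add_zero] at h
  exact h

/-- The tangent to `C x^α` at `x₀`. -/
theorem tangent {α C x₀ x : ℝ} (hα0 : 0 < α) (hα1 : α < 1) (hC : 0 ≤ C) (hx0 : 0 < x₀)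
    (hx : 0 ≤ x) : C * x ^ α ≤ (α * C * x₀ ^ (α - 1)) * x + (1 - α) * C * x₀ ^ α := by
  have h1 : (x / x₀) ^ α * (1 : ℝ) ^ (1 - α) ≤ α * (x / x₀) + (1 - α) * 1 :=
    Real.geom_mean_le_arith_mean2_weighted hα0.le (by linarith) (by positivity) zero_le_one
      (by ring)
  rw [Real.one_rpow, mul_one, mul_one, Real.div_rpow hx hx0.le] at h1
  have h2 : 0 < x₀ ^ α := Real.rpow_pos_of_pos hx0 _
  have h3 : x₀ ^ (α - 1) = x₀ ^ α / x₀ := by rw [Real.rpow_sub hx0, Real.rpow_one]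
  have h4 : x ^ α ≤ (α * (x / x₀) + (1 - α)) * x₀ ^ α := (div_le_iff₀ h2).1 h1
  calc C * x ^ α ≤ C * ((α * (x / x₀) + (1 - α)) * x₀ ^ α) := mul_le_mul_of_nonneg_left h4 hC
    _ = (α * C * x₀ ^ (α - 1)) * x + (1 - α) * C * x₀ ^ α := by
      rw [h3]
      field_simp

theorem tangent_self {α C x₀ : ℝ} (hx0 : 0 < x₀) :
    (α * C * x₀ ^ (α - 1)) * x₀ + (1 - α) * C * x₀ ^ α = C * x₀ ^ α := by
  have h3 : x₀ ^ (α - 1) = x₀ ^ α / x₀ := by rw [Real.rpow_sub hx0, Real.rpow_one]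
  rw [h3]
  field_simp
  ring

/-- A power bound for the costs gives the affine bounds. -/
theorem rateTo_of_le {α C x₀ : ℝ} (hα0 : 0 < α) (hα1 : α < 1) (hC : 0 ≤ C) (hx0 : 0 < x₀)
    {J : ℕ} (h : ∀ n : ℕ, 1 ≤ n → n ≤ J → zr n ≤ C * (n : ℝ) ^ α) :
    RateTo J (α * C * x₀ ^ (α - 1)) ((1 - α) * C * x₀ ^ α) := by
  intro j hj
  refine ⟨zc j, zc_spec j, ?_⟩
  have h2 : (zc j : ℝ) = 2 ^ j * zr j := by
    unfold zr
    field_simp
  rw [h2]
  refine mul_le_mul_of_nonneg_left ?_ (by positivity)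
  have h1 : zr j ≤ C * (j : ℝ) ^ α := by
    rcases Nat.eq_zero_or_pos j with h0 | h0
    · subst h0
      rw [zr_zero]
      positivity
    · exact h j h0 hj
  exact h1.trans (tangent hα0 hα1 hC hx0 (Nat.cast_nonneg _))

/-- One tensor power step. -/
theorem zr_mul_le {m r : ℕ} (h : Word Slide r (tpow E m)) {a b : ℝ} (ha : 0 ≤ a) {K : ℕ}
    (hr : RateTo K a b) : zr (m * K) ≤ r * (a * (K * (2 / 2 ^ m)) + b) + (r + 1) := by
  have hcard : Fintype.card (Fin m → Bool) = 2 ^ m := by simp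
  obtain ⟨s, hs, hsb⟩ := cost_tpow h (by rw [hcard]; positivity) ha K hr
  rw [hcard] at hsb
  refine zr_le ((tpow_mul E m K).symm.cost hs) ?_
  rw [pow_mul]
  push_cast at hsb
  exact hsb

theorem not_word_zero (h : Word Slide 0 (tpow E 1)) : False := by
  cases h with
  | mono hQ =>
    obtain ⟨σ, d, hd, hQ⟩ := hQ
    have h1 := congrFun (congrFun hQ fun _ => false) fun _ => false
    have h2 := congrFun (congrFun hQ fun _ => false) fun _ => true
    simp only [tpow_apply, E_apply, mono_apply] at h1 h2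
    by_cases h3 : σ (fun _ => false) = fun _ => false
    · have h4 : σ (fun _ => false) ≠ fun _ => true := by
        rw [h3]
        intro h5
        have := congrFun h5 0
        simp at this
      rw [if_neg h4] at h2
      simp at h2
    · rw [if_neg h3] at h1
      simp at h1

/-- One short in-place program gives a power saving. -/
theorem zr_le_rpow {m r : ℕ} (hr : r < m * 2 ^ (m - 1)) (h : Word Slide r (tpow E m)) :
    ∃ α : ℝ, 0 < α ∧ α < 1 ∧ ∃ C : ℝ, 0 ≤ C ∧ ∀ n : ℕ, 1 ≤ n → zr n ≤ C * (n : ℝ) ^ α := by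
  have hm1 : 1 ≤ m := by
    rcases Nat.eq_zero_or_pos m with h0 | h0
    · subst h0
      omega
    · exact h0
  have hm : 2 ≤ m := by
    by_contra hcon
    have h1 : m = 1 := by omega
    subst h1
    have h2 : r = 0 := by omega
    subst h2
    exact not_word_zero h
  have hm0 : (0 : ℝ) < m := by exact_mod_cast hm1
  -- the ratio
  set c : ℝ := 2 / (2 ^ m * m) with hc
  have hc0 : 0 < c := by positivity
  have hrc : (r : ℝ) * c < 1 := by
    have h3 : (r : ℝ) < m * 2 ^ (m - 1) := by exact_mod_cast hr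
    have h4 : (2 : ℝ) ^ m = 2 ^ (m - 1) * 2 := by
      rw [← pow_succ]
      congr 1
      omega
    rw [hc, h4, mul_div_assoc', div_lt_one (by positivity)]
    nlinarith
  have hcont : ContinuousAt (fun α : ℝ => (r : ℝ) * c ^ α) 1 :=
    continuousAt_const.mul (Real.continuousAt_const_rpow hc0.ne')
  have h1 : ∀ᶠ α in nhdsWithin (1 : ℝ) (Set.Iio 1), (r : ℝ) * c ^ α < 1 := by
    refine (hcont.tendsto.eventually_lt_const ?_).filter_mono nhdsWithin_le_nhds
    rwa [Real.rpow_one]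
  have h2 : ∀ᶠ α in nhdsWithin (1 : ℝ) (Set.Iio 1), α ∈ Set.Ioo (0 : ℝ) 1 :=
    Ioo_mem_nhdsLT (by norm_num)
  obtain ⟨α, hρ, hα0, hα1⟩ := (h1.and h2).exists
  refine ⟨α, hα0, hα1, ?_⟩
  set ρ : ℝ := r * c ^ α with hρdef
  have hρ0 : 0 ≤ ρ := by positivity
  set D : ℝ := r + 1 + m * zr 1 with hD
  have hD0 : 0 ≤ D := by
    have := zr_nonneg 1
    positivity
  set C : ℝ := D / (1 - ρ) with hCdef
  have hC0 : 0 ≤ C := div_nonneg hD0 (by linarith)
  have hCD : C * (1 - ρ) = D := div_mul_cancel₀ _ (by linarith)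
  have hDC : D ≤ C := by nlinarith
  refine ⟨C, hC0, fun n => ?_⟩
  induction n using Nat.strong_induction_on with
  | _ n ih =>
    intro hn
    have hn1 : (1 : ℝ) ≤ (n : ℝ) ^ α :=
      Real.one_le_rpow (by exact_mod_cast hn) hα0.le
    rcases lt_or_ge n m with hnm | hnm
    · have h3 : zr n ≤ m * zr 1 := (zr_le_mul n).trans
        (mul_le_mul_of_nonneg_right (by exact_mod_cast hnm.le) (zr_nonneg 1))
      have h4 : (m : ℝ) * zr 1 ≤ D := by
        have : (0 : ℝ) ≤ r := Nat.cast_nonneg _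
        linarith
      nlinarith
    · set K := n / m with hK
      have hK1 : 1 ≤ K := (Nat.one_le_div_iff (by omega)).2 hnm
      have hKn : K < n := Nat.div_lt_self (by omega) (by omega)
      have hdm : m * K + n % m = n := Nat.div_add_mod n m
      have hK0 : (0 : ℝ) < K := by exact_mod_cast hK1
      have hx0 : (0 : ℝ) < K * (2 / 2 ^ m) := by positivity
      have hrate := rateTo_of_le hα0 hα1 hC0 hx0 (J := K) fun n' hn' hn'K =>
        ih n' (by omega) hn'
      have h3 := zr_mul_le h (by positivity) hrate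
      rw [tangent_self hx0] at h3
      have h4 : (K : ℝ) * (2 / 2 ^ m) = (m * K : ℕ) * c := by
        rw [hc]
        push_cast
        field_simp
      have h5 : ((K : ℝ) * (2 / 2 ^ m)) ^ α ≤ (n : ℝ) ^ α * c ^ α := by
        rw [h4, Real.mul_rpow (Nat.cast_nonneg _) hc0.le]
        refine mul_le_mul_of_nonneg_right ?_ (by positivity)
        exact Real.rpow_le_rpow (Nat.cast_nonneg _) (by exact_mod_cast (by omega : m * K ≤ n))
          hα0.le
      have h6 : zr (n % m) ≤ m * zr 1 := (zr_le_mul _).trans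
        (mul_le_mul_of_nonneg_right (by exact_mod_cast (Nat.mod_lt n (by omega)).le)
          (zr_nonneg 1))
      have h7 : zr n ≤ zr (m * K) + zr (n % m) := by
        have := zr_subadditive (m * K) (n % m)
        rwa [hdm] at this
      have h8 : (r : ℝ) * (C * ((K : ℝ) * (2 / 2 ^ m)) ^ α) ≤ ρ * (C * (n : ℝ) ^ α) := by
        calc (r : ℝ) * (C * ((K : ℝ) * (2 / 2 ^ m)) ^ α)
            ≤ (r : ℝ) * (C * ((n : ℝ) ^ α * c ^ α)) := by gcongr
          _ = ρ * (C * (n : ℝ) ^ α) := by rw [hρdef]; ring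
      have h9 : zr n ≤ ρ * (C * (n : ℝ) ^ α) + D := by linarith
      have h10 : D ≤ (1 - ρ) * (C * (n : ℝ) ^ α) := by
        calc D = C * (1 - ρ) * 1 := by rw [hCD, mul_one]
          _ ≤ C * (1 - ρ) * (n : ℝ) ^ α :=
            mul_le_mul_of_nonneg_left hn1 (by rw [hCD]; exact hD0)
          _ = (1 - ρ) * (C * (n : ℝ) ^ α) := by ring
      linarith

/-- A power bound for the costs gives the affine bounds for all powers. -/
theorem rate_of_le {α C x₀ : ℝ} (hα0 : 0 < α) (hα1 : α < 1) (hC : 0 ≤ C) (hx0 : 0 < x₀)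
    (h : ∀ n : ℕ, 1 ≤ n → zr n ≤ C * (n : ℝ) ^ α) :
    Rate (α * C * x₀ ^ (α - 1)) ((1 - α) * C * x₀ ^ α) := fun j =>
  rateTo_of_le hα0 hα1 hC hx0 (J := j) (fun n hn _ => h n hn) j le_rfl

end Vale.Agent.P344.R2.H527
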