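import Vale.Agent.P344.R2.H715.Zero
import Vale.Agent.P344.R2.H527.Trunc

/-!
# Single transforms of large smooth-like orders
-/

set_option linter.unusedSectionVars false

namespace Vale.Agent.P344.R2.H527

open Matrix Vale.Agent.P344.R2.H715

theorem forms_copies (N n : ℕ) : (fun (p : Fin N × Fin n) (x : Fin N × Fin n → ℂ) =>
    ∑ i, tensor (1 : Matrix (Fin N) (Fin N) ℂ) (F n) p i * x i) = dftI (Fin N) n := by
  funext p x
  obtain ⟨i, j⟩ := p
  simp only [dftI, dft_def, tensor_apply, Fintype.sum_prod_type, Matrix.one_apply, F_apply]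
  rw [Finset.sum_eq_single i]
  · simp
  · intro i' _ hi'
    simp [Ne.symm hi']
  · intro hi
    exact absurd (Finset.mem_univ _) hi

/-- Any number of copies. -/
theorem cost_batch {N n s : ℕ} (hN : 0 < N)
    (h : Cost (tensor (1 : Matrix (Fin N) (Fin N) ℂ) (F n)) s) (M : ℕ) :
    Cost (tensor (1 : Matrix (Fin M) (Fin M) ℂ) (F n)) ((M / N + 1) * s) := by
  obtain ⟨d, h⟩ := h
  rw [forms_copies] at h
  refine ⟨d, ?_⟩
  rw [forms_copies]
  exact batch hN h M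

theorem cost_match {ι : Type} [Fintype ι] {k : ℕ} {S : Matrix ι ι ℂ} (h : IsMatch k S) :
    Cost S (Fintype.card ι) := by
  classical
  have hle := h.card_le
  obtain ⟨α, β, i1, i2, i3, i4, e, hk, rfl⟩ := h
  have h1 : Cost (core α β) (Fintype.card α * 1 + 0) := Cost.E.tensor_one.sum Cost.one
  exact (h1.submatrix e e).mono (by omega)

theorem cost_layers {ι : Type} [Fintype ι] [DecidableEq ι] {t : ℕ} {M : Matrix ι ι ℂ}
    (h : Word Layer t M) : Cost M ((2 * t + 1) * Fintype.card ι) := by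
  have h1 : Word (fun S => ∃ s : ℕ, Cost S s ∧ (s : ℝ) ≤ (Fintype.card ι : ℝ)) t M :=
    h.imp fun S ⟨k, _, hS⟩ => ⟨_, cost_match hS, le_rfl⟩
  obtain ⟨s, hs, hb⟩ := h1.cost
  refine hs.mono ?_
  have : (s : ℝ) ≤ ((2 * t + 1) * Fintype.card ι : ℕ) := by
    push_cast
    linarith
  exact_mod_cast this

theorem cost_F_two_pow (k : ℕ) : Cost (F (2 ^ k)) ((4 * k + 1) * 2 ^ k) := by
  have h := cost_layers (word_F_pow k)
  rw [Fintype.card_fin, show 2 * (2 * k) + 1 = 4 * k + 1 by ring] at h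
  exact h

/-- Good–Thomas. -/
theorem cost_coprime {m n s t : ℕ} (hm : m ≠ 0) (hn : n ≠ 0) (h : Nat.Coprime m n)
    (hs : Cost (tensor (1 : Matrix (Fin n) (Fin n) ℂ) (F m)) s)
    (ht : Cost (tensor (1 : Matrix (Fin m) (Fin m) ℂ) (F n)) t) :
    Cost (F (m * n)) (s + t) := by
  obtain ⟨e, f, hef⟩ := F_coprime hm hn h
  have h1 : tensor (F m) (F n) = tensor (F m) 1 * tensor 1 (F n) := by
    rw [← H715.tensor_mul, Matrix.mul_one, Matrix.one_mul]
  rw [hef]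
  refine Cost.submatrix ?_ e f
  rw [h1]
  exact ((Eqv.tensor_comm _ _).cost hs).mul ht

theorem cost_coprime_single {m n s t : ℕ} (hm : m ≠ 0) (hn : n ≠ 0) (h : Nat.Coprime m n)
    (hs : Cost (F m) s) (ht : Cost (F n) t) : Cost (F (m * n)) (n * s + m * t) := by
  have h1 := hs.tensor_one (J := Fin n)
  have h2 := ht.tensor_one (J := Fin m)
  rw [Fintype.card_fin] at h1 h2
  exact cost_coprime hm hn h h1 h2

/-- Bluestein's reduction. -/
theorem L_le_of_cost {n N s : ℕ} (hn : n ≠ 0) (hN : 2 * n ≤ N) (h : Cost (F N) s) :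
    L n ≤ 2 * s + N + 2 * n := by
  obtain ⟨d, h⟩ := h
  have h1 : Blk Set.univ (dft N) s d := h
  obtain ⟨s', hs', hc⟩ := (bluestein hn hN (Set.subset_univ _) h1).computes (D := ⊤) le_top
  exact (L_le hc).trans hs'

/-- Copies of the transform of a product of coprime orders. -/
theorem cost_prod {α C : ℝ} (hα0 : 0 < α) (hα1 : α < 1) (hC : 0 ≤ C)
    (hz : ∀ n : ℕ, 1 ≤ n → zr n ≤ C * (n : ℝ) ^ α) {t : ℕ} (f : ℕ → ℕ)
    (hf : ∀ i, f i ≠ 0) {q : ℕ} (hq : 1 ≤ q)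
    (hcop : ∀ i j, i < j → j < q → Nat.Coprime (f i) (f j))
    (hw : ∀ i < q, Word Layer t (tensor (1 : Matrix (Fin 3 × Bool) (Fin 3 × Bool) ℂ) (F (f i))))
    {N : ℕ} (hN : 6 ^ q ≤ N) :
    ∃ s : ℕ, Cost (tensor (1 : Matrix (Fin N) (Fin N) ℂ) (F (∏ i ∈ Finset.range q, f i))) s ∧
      (s : ℝ) ≤ 2 * N * (∏ i ∈ Finset.range q, f i : ℕ) * (t * (C * (q : ℝ) ^ α) + (t + 1)) := by
  have hq0 : (0 : ℝ) < q := by exact_mod_cast hq
  have hrate := rate_of_le hα0 hα1 hC hq0 hz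
  have ha : 0 ≤ α * C * (q : ℝ) ^ (α - 1) := by positivity
  have h1 := word_prod ha hrate f hf q hcop hw
  have h2 := h1.imp (G₂ := fun S => ∃ s : ℕ, Cost S s ∧ (s : ℝ) ≤
    Fintype.card (Fin (6 ^ q) × Fin (∏ i ∈ Finset.range q, f i)) * (C * (q : ℝ) ^ α))
    fun S hS => by
      have h3 := hS.cost
      rwa [tangent_self hq0] at h3
  obtain ⟨s, hs, hb⟩ := h2.cost
  have h6 : 0 < 6 ^ q := by positivity
  refine ⟨_, cost_batch h6 hs N, ?_⟩
  rw [Fintype.card_prod, Fintype.card_fin, Fintype.card_fin] at hb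
  set P : ℕ := ∏ i ∈ Finset.range q, f i with hP
  set X : ℝ := t * (C * (q : ℝ) ^ α) + (t + 1) with hX
  have hX0 : 0 ≤ X := by positivity
  have hs' : (s : ℝ) ≤ (6 ^ q : ℕ) * P * X := by
    refine hb.trans (le_of_eq ?_)
    rw [hX]
    push_cast
    ring
  have h4 : (N / 6 ^ q + 1) * 6 ^ q ≤ 2 * N := by
    have := Nat.div_mul_le_self N (6 ^ q)
    linarith
  have h4' : ((N / 6 ^ q + 1 : ℕ) : ℝ) * (6 ^ q : ℕ) ≤ 2 * N := by exact_mod_cast h4
  calc (((N / 6 ^ q + 1) * s : ℕ) : ℝ) = ((N / 6 ^ q + 1 : ℕ) : ℝ) * s := by push_cast; ring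
    _ ≤ ((N / 6 ^ q + 1 : ℕ) : ℝ) * ((6 ^ q : ℕ) * P * X) :=
      mul_le_mul_of_nonneg_left hs' (Nat.cast_nonneg _)
    _ = (((N / 6 ^ q + 1 : ℕ) : ℝ) * (6 ^ q : ℕ)) * (P * X) := by ring
    _ ≤ (2 * N) * (P * X) := mul_le_mul_of_nonneg_right h4' (by positivity)
    _ = 2 * N * P * X := by ring

end Vale.Agent.P344.R2.H527
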