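import Vale.Agent.P344.R2.H527.Orders

/-!
# A power saving for `L`
-/

set_option linter.unusedSectionVars false

namespace Vale.Agent.P344.R2.H527

open Matrix Filter Asymptotics Vale.Agent.P344.R2.H715

theorem logb_cq_ge (q : ℕ) : 3 ≤ Real.logb 2 (cq q) := by
  rw [Real.le_logb_iff_rpow_le (by norm_num) (by exact_mod_cast cq_pos q)]
  have : (8 : ℝ) ≤ cq q := by exact_mod_cast cq_ge q
  calc (2 : ℝ) ^ (3 : ℝ) = 8 := by norm_num
    _ ≤ cq q := this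

theorem logb_cq_le {q : ℕ} (hq : 1 ≤ q) : Real.logb 2 (cq q) ≤ 7 * (q : ℝ) ^ 2 := by
  rw [Real.logb_le_iff_le_rpow (by norm_num) (by exact_mod_cast cq_pos q)]
  have h1 : (cq q : ℝ) ≤ 2 ^ (7 * q ^ 2) := by exact_mod_cast cq_le_pow hq
  calc (cq q : ℝ) ≤ 2 ^ (7 * q ^ 2) := h1
    _ = (2 : ℝ) ^ (7 * (q : ℝ) ^ 2) := by
      rw [← Real.rpow_natCast]
      push_cast
      rfl

/-- The transforms of the factors, in a common number of layers. -/
theorem word_fq {q i : ℕ} (hi : i < 2 * q) :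
    Word Layer ⌊400 * Real.logb 2 (cq q)⌋₊
      (tensor (1 : Matrix (Fin 3 × Bool) (Fin 3 × Bool) ℂ) (F (fq q i))) := by
  obtain ⟨s, hs, hsw⟩ := exists_word_six_F (fq_ne q i)
  refine hsw.pad trivial (Nat.le_floor (hs.trans ?_))
  have hc : (0 : ℝ) < cq q := by exact_mod_cast cq_pos q
  have h1 : (fq q i : ℝ) ≤ cq q * cq q := by
    have h2 : fq q i ≤ cq q * cq q := by
      have h3 := two_factorial_ge q
      have h4 := cq_pos q
      calc fq q i = (i + 1) * cq q + 1 := rfl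
        _ ≤ (2 * q) * cq q + cq q := Nat.add_le_add (Nat.mul_le_mul_right _ hi) h4
        _ = (2 * q + 1) * cq q := by ring
        _ ≤ cq q * cq q := Nat.mul_le_mul_right _ (by omega)
    exact_mod_cast h2
  have h2 : Real.logb 2 (fq q i) ≤ Real.logb 2 (cq q * cq q) :=
    Real.logb_le_logb_of_le (by norm_num)
      (by exact_mod_cast Nat.pos_of_ne_zero (fq_ne q i)) h1
  rw [Real.logb_mul hc.ne' hc.ne'] at h2
  have h3 := logb_cq_ge q
  linarith

/-- The cost of the transform of order `R_q`. -/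
theorem cost_Rq {α C : ℝ} (hα0 : 0 < α) (hα1 : α < 1) (hC : 0 ≤ C)
    (hz : ∀ n : ℕ, 1 ≤ n → zr n ≤ C * (n : ℝ) ^ α) {q : ℕ} (hq : 1 ≤ q) :
    ∃ s : ℕ, Cost (F (Rq q)) s ∧
      (s : ℝ) ≤ 4 * Rq q * ((400 * C + 401) * (Real.logb 2 (cq q) * (q : ℝ) ^ α)) := by
  set t : ℕ := ⌊400 * Real.logb 2 (cq q)⌋₊ with ht
  set ℓ : ℝ := Real.logb 2 (cq q) with hℓ
  have hℓ3 : 3 ≤ ℓ := logb_cq_ge q
  have htℓ : (t : ℝ) ≤ 400 * ℓ := Nat.floor_le (by positivity)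
  set M : ℕ := ∏ i ∈ Finset.range q, fq q i with hM
  set P : ℕ := ∏ i ∈ Finset.range q, fq q (q + i) with hP
  have hM0 : M ≠ 0 := Finset.prod_ne_zero_iff.2 fun i _ => fq_ne q i
  have hP0 : P ≠ 0 := Finset.prod_ne_zero_iff.2 fun i _ => fq_ne q _
  have h6 : ∀ i, 6 ≤ fq q i := fun i => by
    have := cq_le_fq q i
    have := cq_ge q
    omega
  have hM6 : 6 ^ q ≤ M := prod_ge _ _ fun i _ => h6 i
  have hP6 : 6 ^ q ≤ P := prod_ge (fun i => fq q (q + i)) _ fun i _ => h6 _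
  obtain ⟨s1, hs1, hb1⟩ := cost_prod hα0 hα1 hC hz (t := t) (fq q) (fq_ne q) hq
    (fun i j hij hj => fq_coprime hij (by omega)) (fun i hi => word_fq (by omega)) hP6
  obtain ⟨s2, hs2, hb2⟩ := cost_prod hα0 hα1 hC hz (t := t) (fun i => fq q (q + i))
    (fun i => fq_ne q _) hq (fun i j hij hj => fq_coprime (by omega) (by omega))
    (fun i hi => word_fq (by omega)) hM6
  have hcop : Nat.Coprime M P := by
    rw [hM, hP, Nat.coprime_prod_left_iff]
    intro i hi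
    rw [Nat.coprime_prod_right_iff]
    intro j hj
    rw [Finset.mem_range] at hi hj
    exact fq_coprime (by omega) (by omega)
  have hc := cost_coprime hM0 hP0 hcop hs1 hs2
  refine ⟨s1 + s2, ?_, ?_⟩
  · rw [Rq_split]
    exact hc
  · set X : ℝ := t * (C * (q : ℝ) ^ α) + (t + 1) with hX
    have hq1 : (1 : ℝ) ≤ (q : ℝ) ^ α := Real.one_le_rpow (by exact_mod_cast hq) hα0.le
    have hXb : X ≤ (400 * C + 401) * (ℓ * (q : ℝ) ^ α) := by
      have e1 : (t : ℝ) * (C * (q : ℝ) ^ α) ≤ (400 * ℓ) * (C * (q : ℝ) ^ α) :=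
        mul_le_mul_of_nonneg_right htℓ (by positivity)
      have e2 : ℓ ≤ ℓ * (q : ℝ) ^ α := by nlinarith
      have e3 : (t : ℝ) + 1 ≤ 401 * (ℓ * (q : ℝ) ^ α) := by nlinarith
      calc X ≤ (400 * ℓ) * (C * (q : ℝ) ^ α) + 401 * (ℓ * (q : ℝ) ^ α) := by
            rw [hX]; linarith
        _ = (400 * C + 401) * (ℓ * (q : ℝ) ^ α) := by ring
    have hR : (Rq q : ℝ) = M * P := by
      rw [Rq_split]
      push_cast
      rw [hM, hP]
      push_cast
      rfl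
    push_cast
    calc (s1 : ℝ) + s2 ≤ 2 * P * M * X + 2 * M * P * X := add_le_add hb1 hb2
      _ = 4 * (M * P) * X := by ring
      _ ≤ 4 * (M * P) * ((400 * C + 401) * (ℓ * (q : ℝ) ^ α)) :=
        mul_le_mul_of_nonneg_left hXb (by positivity)
      _ = 4 * Rq q * ((400 * C + 401) * (ℓ * (q : ℝ) ^ α)) := by rw [hR]

/-- The cost of a single transform. -/
theorem L_le_aux {α C : ℝ} (hα0 : 0 < α) (hα1 : α < 1) (hC : 0 ≤ C)
    (hz : ∀ n : ℕ, 1 ≤ n → zr n ≤ C * (n : ℝ) ^ α) {n : ℕ} (hn : Rq 1 ≤ n) :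
    ∃ q : ℕ, 1 ≤ q ∧ q * Real.logb 2 (cq q) ≤ Real.logb 2 n ∧
      (L n : ℝ) ≤ (12800 * C + 13400) * (n * (Real.logb 2 (cq q) * (q : ℝ) ^ α)) := by
  obtain ⟨q, k, hq, hRn, h2n, h4n, hk⟩ := exists_order hn
  have hn0 : 0 < n := lt_of_lt_of_le (Rq_pos 1) hn
  have hnr : (0 : ℝ) < n := by exact_mod_cast hn0
  set ℓ : ℝ := Real.logb 2 (cq q) with hℓ
  have hℓ3 : 3 ≤ ℓ := logb_cq_ge q
  have hcq : (0 : ℝ) < cq q := by exact_mod_cast cq_pos q
  have hqα : (1 : ℝ) ≤ (q : ℝ) ^ α := Real.one_le_rpow (by exact_mod_cast hq) hα0.le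
  refine ⟨q, hq, ?_, ?_⟩
  · have h1 : ((cq q : ℝ)) ^ (2 * q) ≤ n := by
      exact_mod_cast (Rq_ge q).trans hRn
    have h2 : Real.logb 2 ((cq q : ℝ) ^ (2 * q)) ≤ Real.logb 2 n :=
      Real.logb_le_logb_of_le (by norm_num) (by positivity) h1
    rw [Real.logb_pow] at h2
    push_cast at h2
    have h3 : (0 : ℝ) ≤ q * ℓ := by positivity
    linarith
  · obtain ⟨s, hs, hsb⟩ := cost_Rq hα0 hα1 hC hz hq
    have hcop : Nat.Coprime (2 ^ k) (Rq q) := by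
      refine Nat.Coprime.pow_left _ ?_
      unfold Rq
      rw [Nat.coprime_prod_right_iff]
      exact fun i _ => fq_odd q i
    have hF := cost_coprime_single (by positivity) (Rq_pos q).ne' hcop (cost_F_two_pow k) hs
    have hL := L_le_of_cost hn0.ne' h2n hF
    -- the power of two
    have hkℓ : (k : ℝ) ≤ 2 + 16 * ℓ := by
      have h1 : (2 : ℝ) ^ k ≤ 4 * (cq q : ℝ) ^ 16 := by exact_mod_cast hk
      have h2 : Real.logb 2 ((2 : ℝ) ^ k) ≤ Real.logb 2 (4 * (cq q : ℝ) ^ 16) :=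
        Real.logb_le_logb_of_le (by norm_num) (by positivity) h1
      rw [Real.logb_pow, Real.logb_self_eq_one (by norm_num),
        Real.logb_mul (by norm_num) (by positivity), Real.logb_pow] at h2
      have h3 : Real.logb 2 (4 : ℝ) = 2 := by
        rw [show (4 : ℝ) = 2 ^ (2 : ℕ) by norm_num, Real.logb_pow,
          Real.logb_self_eq_one (by norm_num)]
        norm_num
      rw [h3] at h2
      push_cast at h2
      linarith
    set X : ℝ := (400 * C + 401) * (ℓ * (q : ℝ) ^ α) with hX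
    have hX0 : 0 ≤ X := by positivity
    have hN : (2 : ℝ) ^ k * Rq q ≤ 4 * n := by exact_mod_cast h4n
    have hL' : (L n : ℝ) ≤ 2 * (Rq q * ((4 * k + 1) * 2 ^ k) + 2 ^ k * s) + 2 ^ k * Rq q
        + 2 * n := by exact_mod_cast hL
    have e0 : (2 : ℝ) ^ k * s ≤ 2 ^ k * (4 * Rq q * X) :=
      mul_le_mul_of_nonneg_left hsb (by positivity)
    have e1 : (L n : ℝ) ≤ (2 ^ k * Rq q) * (2 * (4 * k + 1) + 8 * X + 1) + 2 * n := by
      calc (L n : ℝ) ≤ 2 * (Rq q * ((4 * k + 1) * 2 ^ k) + 2 ^ k * s) + 2 ^ k * Rq q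
            + 2 * n := hL'
        _ ≤ 2 * (Rq q * ((4 * k + 1) * 2 ^ k) + 2 ^ k * (4 * Rq q * X)) + 2 ^ k * Rq q
            + 2 * n := by linarith
        _ = _ := by ring
    have e2 : ((2 : ℝ) ^ k * Rq q) * (2 * (4 * k + 1) + 8 * X + 1) ≤
        (4 * n) * (2 * (4 * k + 1) + 8 * X + 1) :=
      mul_le_mul_of_nonneg_right hN (by positivity)
    have e3 : 2 * (4 * (k : ℝ) + 1) + 1 ≤ 135 * ℓ := by linarith
    have e4 : ℓ ≤ ℓ * (q : ℝ) ^ α := by nlinarith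
    set Y : ℝ := ℓ * (q : ℝ) ^ α with hY
    have e5 : 2 * (4 * (k : ℝ) + 1) + 8 * X + 1 ≤ (3200 * C + 3343) * Y := by
      calc 2 * (4 * (k : ℝ) + 1) + 8 * X + 1 ≤ 135 * ℓ + 8 * X := by linarith
        _ ≤ 135 * Y + 8 * X := by linarith
        _ = (3200 * C + 3343) * Y := by rw [hX]; ring
    have e6 : (4 * (n : ℝ)) * (2 * (4 * k + 1) + 8 * X + 1) ≤
        (4 * n) * ((3200 * C + 3343) * Y) := mul_le_mul_of_nonneg_left e5 (by positivity)
    have e7 : 2 * (n : ℝ) ≤ 2 * (n * Y) := by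
      have : 1 ≤ Y := by linarith
      nlinarith
    calc (L n : ℝ) ≤ (4 * n) * ((3200 * C + 3343) * Y) + 2 * (n * Y) := by linarith
      _ = (12800 * C + 13374) * (n * Y) := by ring
      _ ≤ (12800 * C + 13400) * (n * Y) := by
        have : (0 : ℝ) ≤ n * Y := by positivity
        nlinarith

/-- A power bound for the zeta transform gives a power saving for the Fourier transform. -/
theorem L_isBigO {α C : ℝ} (hα0 : 0 < α) (hα1 : α < 1) (hC : 0 ≤ C)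
    (hz : ∀ n : ℕ, 1 ≤ n → zr n ≤ C * (n : ℝ) ^ α) :
    (fun n : ℕ => (L n : ℝ)) =O[atTop]
      fun n : ℕ => (n : ℝ) * Real.logb 2 n ^ (1 - (1 - α) / 3) := by
  set ε : ℝ := (1 - α) / 3 with hε
  have hε0 : 0 < ε := by rw [hε]; linarith
  have hε1 : ε < 1 := by rw [hε]; linarith
  refine IsBigO.of_bound (7 * (12800 * C + 13400)) ?_
  filter_upwards [eventually_ge_atTop (Rq 1)] with n hn
  obtain ⟨q, hq, hqn, hL⟩ := L_le_aux hα0 hα1 hC hz hn
  set ℓ : ℝ := Real.logb 2 (cq q) with hℓ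
  have hℓ3 : 3 ≤ ℓ := logb_cq_ge q
  have hℓ0 : 0 < ℓ := by linarith
  have hℓ7 : ℓ ≤ 7 * (q : ℝ) ^ 2 := logb_cq_le hq
  have hq1 : (1 : ℝ) ≤ q := by exact_mod_cast hq
  have hq0 : (0 : ℝ) < q := by linarith
  have hlog0 : 0 ≤ Real.logb 2 (n : ℝ) := le_trans (by positivity) hqn
  have key : ℓ * (q : ℝ) ^ α ≤ 7 * Real.logb 2 (n : ℝ) ^ (1 - ε) := by
    have h1 : ℓ ^ ε ≤ 7 * (q : ℝ) ^ (2 * ε) := by
      calc ℓ ^ ε ≤ (7 * (q : ℝ) ^ 2) ^ ε := Real.rpow_le_rpow hℓ0.le hℓ7 hε0.le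
        _ = 7 ^ ε * (q : ℝ) ^ (2 * ε) := by
          rw [Real.mul_rpow (by norm_num) (by positivity), Real.rpow_mul hq0.le]
          norm_num
        _ ≤ 7 * (q : ℝ) ^ (2 * ε) := by
          refine mul_le_mul_of_nonneg_right ?_ (by positivity)
          calc (7 : ℝ) ^ ε ≤ 7 ^ (1 : ℝ) :=
                Real.rpow_le_rpow_of_exponent_le (by norm_num) hε1.le
            _ = 7 := Real.rpow_one 7
    have h2 : ℓ = ℓ ^ (1 - ε) * ℓ ^ ε := by
      rw [← Real.rpow_add hℓ0, sub_add_cancel, Real.rpow_one]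
    have h3 : (q : ℝ) ^ (2 * ε) * (q : ℝ) ^ α = (q : ℝ) ^ (1 - ε) := by
      rw [← Real.rpow_add hq0]
      congr 1
      rw [hε]
      ring
    calc ℓ * (q : ℝ) ^ α = ℓ ^ (1 - ε) * (ℓ ^ ε * (q : ℝ) ^ α) := by
          conv_lhs => rw [h2]
          ring
      _ ≤ ℓ ^ (1 - ε) * ((7 * (q : ℝ) ^ (2 * ε)) * (q : ℝ) ^ α) := by gcongr
      _ = 7 * (q * ℓ) ^ (1 - ε) := by
          rw [Real.mul_rpow hq0.le hℓ0.le, ← h3]
          ring
      _ ≤ 7 * Real.logb 2 (n : ℝ) ^ (1 - ε) := by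
          refine mul_le_mul_of_nonneg_left ?_ (by norm_num)
          exact Real.rpow_le_rpow (by positivity) hqn (by linarith)
  have hn0 : (0 : ℝ) ≤ n := Nat.cast_nonneg _
  rw [Real.norm_of_nonneg (Nat.cast_nonneg _), Real.norm_of_nonneg (by positivity)]
  calc (L n : ℝ) ≤ (12800 * C + 13400) * (n * (ℓ * (q : ℝ) ^ α)) := hL
    _ ≤ (12800 * C + 13400) * (n * (7 * Real.logb 2 (n : ℝ) ^ (1 - ε))) := by gcongr
    _ = 7 * (12800 * C + 13400) * (n * Real.logb 2 (n : ℝ) ^ (1 - ε)) := by ring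

/-- One in-place program for `E^{⊗ m}` with fewer than `m 2^{m-1}` steps gives a power saving in
the logarithm for the Fourier transform. -/
theorem L_isBigO_of_word {m r : ℕ} (hr : r < m * 2 ^ (m - 1)) (h : Word Slide r (tpow E m)) :
    ∃ ε : ℝ, 0 < ε ∧ (fun n : ℕ => (L n : ℝ)) =O[atTop]
      fun n : ℕ => (n : ℝ) * Real.logb 2 n ^ (1 - ε) := by
  obtain ⟨α, hα0, hα1, C, hC, hz⟩ := zr_le_rpow hr h
  exact ⟨(1 - α) / 3, by linarith, L_isBigO hα0 hα1 hC hz⟩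

end Vale.Agent.P344.R2.H527
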