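import Vale.Agent.P344.R2.H715.Tfae
import Vale.Agent.P344.R2.H527.Power

/-!
# The dichotomy
-/

set_option linter.unusedSectionVars false

namespace Vale.Agent.P344.R2.H527

open Filter Asymptotics Vale.Agent.P344.R2.H715

/-- If the fast zeta transform is not optimal, the Fourier transform has a power saving. -/
theorem isBigO_of_not (h : ¬ NoShort) :
    ∃ ε : ℝ, 0 < ε ∧ (fun n : ℕ => (L n : ℝ)) =O[atTop]
      fun n : ℕ => (n : ℝ) * Real.logb 2 n ^ (1 - ε) := by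
  unfold NoShort at h
  push Not at h
  obtain ⟨m, r, hw, hr⟩ := h
  exact L_isBigO_of_word hr hw

/-- If the fast zeta transform is not optimal in place, it has circuits with a power saving. -/
theorem zeta_of_not (h : ¬ NoShort) : ∃ ε : ℝ, 0 < ε ∧ ∃ C : ℝ, ∀ m : ℕ, 1 ≤ m →
    ∃ s : ℕ, Computes Set.univ ⊤ (zetaForms m) s ∧ (s : ℝ) ≤ C * ((m : ℝ) ^ (1 - ε) * 2 ^ m) := by
  unfold NoShort at h
  push Not at h
  obtain ⟨m₀, r, hw, hr⟩ := h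
  obtain ⟨α, hα0, hα1, C, hC, hz⟩ := zr_le_rpow hr hw
  refine ⟨1 - α, by linarith, C, fun m hm => ?_⟩
  obtain ⟨d, h2⟩ := (eqv_zetaMat m).cost (zc_spec m)
  have h3 : Blk Set.univ (zetaForms m) (zc m) d := by
    convert h2 using 1
    funext S x
    simp [zetaMat, zetaForms]
  obtain ⟨s, hs, hc⟩ := h3.computes (D := ⊤) le_top
  refine ⟨s, hc, ?_⟩
  have h4 : (zc m : ℝ) = 2 ^ m * zr m := by
    unfold zr
    field_simp
  have h5 : (s : ℝ) ≤ zc m := by exact_mod_cast hs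
  calc (s : ℝ) ≤ 2 ^ m * zr m := by rw [← h4]; exact h5
    _ ≤ 2 ^ m * (C * (m : ℝ) ^ α) := mul_le_mul_of_nonneg_left (hz m hm) (by positivity)
    _ = C * ((m : ℝ) ^ (1 - (1 - α)) * 2 ^ m) := by
      rw [show (1 : ℝ) - (1 - α) = α by ring]
      ring

/-- One short program, possibly with borrowed cells, gives a power saving. -/
theorem isBigO_of_borrow {m w r : ℕ} (h : InPlace r (borrow w (zetaMat m)))
    (hr : r < m * 2 ^ (m - 1)) :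
    ∃ ε : ℝ, 0 < ε ∧ (fun n : ℕ => (L n : ℝ)) =O[atTop]
      fun n : ℕ => (n : ℝ) * Real.logb 2 n ^ (1 - ε) :=
  isBigO_of_not fun h1 => absurd (h1.borrow h) (not_le.2 hr)

/-- A power of the logarithm tends to infinity. -/
theorem eventually_rpow_logb {δ : ℝ} (hδ : 0 < δ) (B : ℝ) :
    ∀ᶠ n : ℕ in atTop, B < Real.logb 2 (n : ℝ) ^ δ :=
  ((tendsto_rpow_atTop hδ).comp logb_nat_tendsto).eventually_gt_atTop B

/-- Weak lower bounds for infinitely many orders make the fast zeta transform optimal. -/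
theorem noShort_of_frequently (H : ∀ ε : ℝ, 0 < ε → ∃ᶠ n : ℕ in atTop,
    (n : ℝ) * Real.logb 2 n ^ (1 - ε) ≤ L n) : NoShort := by
  by_contra hcon
  obtain ⟨ε, hε, hO⟩ := isBigO_of_not hcon
  obtain ⟨K, hK⟩ := hO.bound
  have h1 := H (ε / 2) (by linarith)
  obtain ⟨n, hn, hKn, hln, hn2⟩ := (h1.and_eventually (hK.and
    ((eventually_rpow_logb (δ := ε / 2) (by linarith) K).and (eventually_ge_atTop 2)))).exists
  have hl1 : 1 ≤ Real.logb 2 (n : ℝ) := logb_pos_of_two_le hn2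
  have hl0 : 0 < Real.logb 2 (n : ℝ) := by linarith
  have hn0 : (0 : ℝ) < n := by exact_mod_cast (by omega : 0 < n)
  rw [Real.norm_of_nonneg (Nat.cast_nonneg _), Real.norm_of_nonneg (by positivity)] at hKn
  have h2 : Real.logb 2 (n : ℝ) ^ (1 - ε / 2) =
      Real.logb 2 (n : ℝ) ^ (ε / 2) * Real.logb 2 (n : ℝ) ^ (1 - ε) := by
    rw [← Real.rpow_add hl0]
    congr 1
    ring
  have h3 : 0 < (n : ℝ) * Real.logb 2 (n : ℝ) ^ (1 - ε) := by positivity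
  have h4 : Real.logb 2 (n : ℝ) ^ (ε / 2) * (n * Real.logb 2 (n : ℝ) ^ (1 - ε)) ≤
      K * (n * Real.logb 2 (n : ℝ) ^ (1 - ε)) := by
    calc Real.logb 2 (n : ℝ) ^ (ε / 2) * (n * Real.logb 2 (n : ℝ) ^ (1 - ε))
        = n * Real.logb 2 (n : ℝ) ^ (1 - ε / 2) := by rw [h2]; ring
      _ ≤ L n := hn
      _ ≤ _ := hKn
  exact absurd (le_of_mul_le_mul_right h4 h3) (not_le.2 hln)

/-- The same for circuits for the zeta transform. -/
theorem noShort_of_zeta (H : ∀ ε : ℝ, 0 < ε → ∃ᶠ m : ℕ in atTop, ∀ s : ℕ,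
    Computes Set.univ ⊤ (zetaForms m) s → (m : ℝ) ^ (1 - ε) * 2 ^ m ≤ s) : NoShort := by
  by_contra hcon
  obtain ⟨ε, hε, C, hC⟩ := zeta_of_not hcon
  have h1 := H (ε / 2) (by linarith)
  have h2 : ∀ᶠ m : ℕ in atTop, C < (m : ℝ) ^ (ε / 2) :=
    ((tendsto_rpow_atTop (by linarith)).comp tendsto_natCast_atTop_atTop).eventually_gt_atTop C
  obtain ⟨m, hm, hCm, hm1⟩ := (h1.and_eventually (h2.and (eventually_ge_atTop 1))).exists
  obtain ⟨s, hs, hsb⟩ := hC m hm1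
  have hm0 : (0 : ℝ) < m := by exact_mod_cast hm1
  have h3 : (m : ℝ) ^ (1 - ε / 2) = (m : ℝ) ^ (ε / 2) * (m : ℝ) ^ (1 - ε) := by
    rw [← Real.rpow_add hm0]
    congr 1
    ring
  have h4 : 0 < (m : ℝ) ^ (1 - ε) * 2 ^ m := by positivity
  have h5 : (m : ℝ) ^ (ε / 2) * ((m : ℝ) ^ (1 - ε) * 2 ^ m) ≤
      C * ((m : ℝ) ^ (1 - ε) * 2 ^ m) := by
    calc (m : ℝ) ^ (ε / 2) * ((m : ℝ) ^ (1 - ε) * 2 ^ m) = (m : ℝ) ^ (1 - ε / 2) * 2 ^ m := by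
          rw [h3]; ring
      _ ≤ s := hm s hs
      _ ≤ _ := hsb
  exact absurd (le_of_mul_le_mul_right h5 h4) (not_le.2 hCm)

theorem frequently_of_q1 (h : ∃ c : ℝ, 0 < c ∧ ∀ᶠ n : ℕ in atTop,
    c * (n * Real.logb 2 n) ≤ L n) {ε : ℝ} (hε : 0 < ε) :
    ∃ᶠ n : ℕ in atTop, (n : ℝ) * Real.logb 2 n ^ (1 - ε) ≤ L n := by
  obtain ⟨c, hc, h⟩ := h
  refine Filter.Eventually.frequently ?_
  filter_upwards [h, eventually_rpow_logb hε (1 / c), eventually_ge_atTop 2] with n hn hl hn2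
  have hl1 : 1 ≤ Real.logb 2 (n : ℝ) := logb_pos_of_two_le hn2
  have hl0 : 0 < Real.logb 2 (n : ℝ) := by linarith
  refine le_trans ?_ hn
  have h1 : Real.logb 2 (n : ℝ) ^ (1 - ε) * Real.logb 2 (n : ℝ) ^ ε = Real.logb 2 (n : ℝ) := by
    rw [← Real.rpow_add hl0, sub_add_cancel, Real.rpow_one]
  have h2 : 1 ≤ c * Real.logb 2 (n : ℝ) ^ ε := by
    rw [div_lt_iff₀ hc] at hl
    linarith
  have h3 : Real.logb 2 (n : ℝ) ^ (1 - ε) ≤ c * Real.logb 2 (n : ℝ) := by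
    have h4 : 0 ≤ Real.logb 2 (n : ℝ) ^ (1 - ε) := by positivity
    calc Real.logb 2 (n : ℝ) ^ (1 - ε) = Real.logb 2 (n : ℝ) ^ (1 - ε) * 1 := by ring
      _ ≤ Real.logb 2 (n : ℝ) ^ (1 - ε) * (c * Real.logb 2 (n : ℝ) ^ ε) :=
        mul_le_mul_of_nonneg_left h2 h4
      _ = c * (Real.logb 2 (n : ℝ) ^ (1 - ε) * Real.logb 2 (n : ℝ) ^ ε) := by ring
      _ = c * Real.logb 2 (n : ℝ) := by rw [h1]
  calc (n : ℝ) * Real.logb 2 n ^ (1 - ε) ≤ n * (c * Real.logb 2 n) :=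
        mul_le_mul_of_nonneg_left h3 (Nat.cast_nonneg _)
    _ = c * (n * Real.logb 2 n) := by ring

theorem zeta_frequently (h : ∀ m s : ℕ, Computes Set.univ ⊤ (zetaForms m) s →
    m * 2 ^ m ≤ 24 * s + 6 * 2 ^ m) {ε : ℝ} (hε : 0 < ε) :
    ∃ᶠ m : ℕ in atTop, ∀ s : ℕ,
      Computes Set.univ ⊤ (zetaForms m) s → (m : ℝ) ^ (1 - ε) * 2 ^ m ≤ s := by
  refine Filter.Eventually.frequently ?_
  have h2 : ∀ᶠ m : ℕ in atTop, (25 : ℝ) < (m : ℝ) ^ ε :=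
    ((tendsto_rpow_atTop hε).comp tendsto_natCast_atTop_atTop).eventually_gt_atTop 25
  filter_upwards [h2, eventually_ge_atTop 150] with m hl hm s hs
  have h1 : (m : ℝ) * 2 ^ m ≤ 24 * s + 6 * 2 ^ m := by exact_mod_cast h m s hs
  have h2 : (150 : ℝ) ≤ m := by exact_mod_cast hm
  have hm0 : (0 : ℝ) < m := by linarith
  have h3 : (150 : ℝ) * 2 ^ m ≤ m * 2 ^ m := mul_le_mul_of_nonneg_right h2 (by positivity)
  have h4 : (m : ℝ) ^ (1 - ε) * (m : ℝ) ^ ε = m := by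
    rw [← Real.rpow_add hm0, sub_add_cancel, Real.rpow_one]
  have h5 : 25 * (m : ℝ) ^ (1 - ε) ≤ m := by
    have : 0 ≤ (m : ℝ) ^ (1 - ε) := by positivity
    calc 25 * (m : ℝ) ^ (1 - ε) ≤ (m : ℝ) ^ ε * (m : ℝ) ^ (1 - ε) :=
          mul_le_mul_of_nonneg_right hl.le this
      _ = m := by rw [mul_comm, h4]
  have h6 : 25 * (m : ℝ) ^ (1 - ε) * 2 ^ m ≤ m * 2 ^ m :=
    mul_le_mul_of_nonneg_right h5 (by positivity)
  linarith

/-- The forms of Q1. -/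
theorem forms_tfae' : List.TFAE [
    ∃ c : ℝ, 0 < c ∧ ∀ᶠ n : ℕ in atTop, c * (n * Real.logb 2 n) ≤ L n,
    ∀ m : ℕ, IsLeast {r | InPlace r (zetaMat m)} (m * 2 ^ (m - 1)),
    ∀ m w r : ℕ, InPlace r (borrow w (zetaMat m)) → m * 2 ^ (m - 1) ≤ r,
    ∀ n : ℕ, 2 ≤ n → (n : ℝ) * Real.logb 2 n ≤ 576 * (L n + n),
    ∀ m : ℕ, m * 2 ^ m ≤ 144 * L (2 ^ m - 1) + 318 * 2 ^ m,
    ∀ ε : ℝ, 0 < ε → ∃ᶠ n : ℕ in atTop, (n : ℝ) * Real.logb 2 n ^ (1 - ε) ≤ L n,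
    ∀ m s : ℕ, Computes Set.univ ⊤ (zetaForms m) s → m * 2 ^ m ≤ 24 * s + 6 * 2 ^ m,
    ∀ ε : ℝ, 0 < ε → ∃ᶠ m : ℕ in atTop, ∀ s : ℕ,
      Computes Set.univ ⊤ (zetaForms m) s → (m : ℝ) ^ (1 - ε) * 2 ^ m ≤ s,
    ∃ c : ℝ, 0 < c ∧ ∀ᶠ n : ℕ in atTop, ∀ N w r : ℕ, 1 ≤ N →
      InPlace r (borrow w (dftCopies N n)) → c * (N * (n * Real.logb 2 n)) ≤ r] := by
  have T := forms_tfae
  tfae_have 1 ↔ 2 := T.out 0 1
  tfae_have 1 ↔ 3 := T.out 0 2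
  tfae_have 1 ↔ 4 := T.out 0 3
  tfae_have 1 ↔ 5 := T.out 0 4
  tfae_have 1 ↔ 7 := T.out 0 5
  tfae_have 1 ↔ 9 := T.out 0 7
  tfae_have 1 → 6 := fun h ε hε => frequently_of_q1 h hε
  tfae_have 6 → 3 := fun h m w r hr => (noShort_of_frequently h).borrow hr
  tfae_have 7 → 8 := fun h ε hε => zeta_frequently h hε
  tfae_have 8 → 3 := fun h m w r hr => (noShort_of_zeta h).borrow hr
  tfae_finish

end Vale.Agent.P344.R2.H527
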