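import Vale.Agent.P344.R2.H715.Fun3
import Vale.Agent.P344.R2.H527.Forms

/-!
# From `cc E = 0` to the Fourier transform
-/

set_option linter.unusedSectionVars false

namespace Vale.Agent.P344.R2.H527

open Filter Asymptotics Vale.Agent.P344.R2.H715

theorem zr_eq_rt : zr = rt E := by
  funext K
  simp [zr, rt, zc, cmin]

theorem lim_eq_slope : zr_subadditive.lim = slope E := by
  have h1 := zr_subadditive.tendsto_lim zr_bdd
  have h2 := slope_tendsto E
  rw [← zr_eq_rt] at h2
  exact tendsto_nhds_unique h1 h2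

/-- If the asymptotic cost of `E` vanishes, so does the constant of the Fourier transform. -/
theorem gam_eq_zero_of_cc (h : cc E = 0) : gam = 0 := by
  have h0 : slope E = 0 := by
    unfold cc at h
    simpa using h
  refine gam_eq_zero fun ε hε => rate_of_lt ?_
  rw [lim_eq_slope, h0]
  exact hε

theorem not_noShort_of_gam (h : gam = 0) : ¬ NoShort := by
  intro hN
  have h1 := gam_ge hN.bounds.2
  rw [h] at h1
  norm_num at h1

theorem not_noShort_of_cc (h : cc E = 0) : ¬ NoShort := not_noShort_of_gam (gam_eq_zero_of_cc h)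

/-- Q1 fails if the asymptotic cost of `E` vanishes. -/
theorem not_q1 (h : ¬ NoShort) : ¬ ∃ c : ℝ, 0 < c ∧ ∀ᶠ n : ℕ in atTop,
    c * (n * Real.logb 2 n) ≤ L n := by
  intro hq
  have h1 : ∀ m : ℕ, IsLeast {r | InPlace r (zetaMat m)} (m * 2 ^ (m - 1)) :=
    (forms_tfae'.out 0 1).1 hq
  exact h (noShort_iff.2 fun m r hr => (h1 m).2 hr)

end Vale.Agent.P344.R2.H527
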