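import Vale.Agent.P344.R2.H527.Glue
import Vale.Agent.P344.R2.H527.Bridge

/-!
# The discrete Fourier transform is cheaper than `n log n`
-/

set_option linter.unusedSectionVars false

namespace Vale.Agent.P344.R2.H527

open Filter Asymptotics Vale.Agent.P344.R2.H715

/-- The fast zeta transform is not optimal in place. -/
theorem not_noShort : ¬ NoShort := not_noShort_of_cc cc_E

/-- An asymptotic bound, for all orders. -/
theorem explicit_of_isBigO {ε : ℝ} (h : (fun n : ℕ => (L n : ℝ)) =O[atTop]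
    fun n : ℕ => (n : ℝ) * Real.logb 2 n ^ (1 - ε)) :
    ∃ C : ℝ, ∀ n : ℕ, 2 ≤ n → (L n : ℝ) ≤ C * (n * Real.logb 2 n ^ (1 - ε)) := by
  obtain ⟨C, hC⟩ := h.bound
  obtain ⟨N, hN⟩ := Filter.eventually_atTop.1 hC
  have hpos : ∀ n : ℕ, 2 ≤ n → 0 < (n : ℝ) * Real.logb 2 n ^ (1 - ε) := by
    intro n hn
    have h1 := logb_pos_of_two_le hn
    have h2 : (0 : ℝ) < n := by exact_mod_cast (by omega : 0 < n)
    have h3 : 0 < Real.logb 2 (n : ℝ) := by linarith
    positivity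
  have hnn : ∀ k : ℕ, 0 ≤ (L k : ℝ) / ((k : ℝ) * Real.logb 2 k ^ (1 - ε)) := by
    intro k
    rcases le_or_gt 2 k with hk | hk
    · exact div_nonneg (Nat.cast_nonneg _) (hpos k hk).le
    · have h1 : (0 : ℝ) ≤ Real.logb 2 (k : ℝ) ^ (1 - ε) := by
        refine Real.rpow_nonneg ?_ _
        interval_cases k <;> simp
      positivity
  refine ⟨max C (∑ k ∈ Finset.range N, (L k : ℝ) / ((k : ℝ) * Real.logb 2 k ^ (1 - ε))),
    fun n hn => ?_⟩
  rcases le_or_gt N n with h1 | h1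
  · have h2 := hN n h1
    rw [Real.norm_of_nonneg (Nat.cast_nonneg _), Real.norm_of_nonneg (hpos n hn).le] at h2
    exact h2.trans (mul_le_mul_of_nonneg_right (le_max_left _ _) (hpos n hn).le)
  · have h2 := Finset.single_le_sum
      (f := fun k : ℕ => (L k : ℝ) / ((k : ℝ) * Real.logb 2 k ^ (1 - ε)))
      (fun k _ => hnn k) (Finset.mem_range.2 h1)
    rw [← div_le_iff₀ (hpos n hn)]
    exact h2.trans (le_max_right _ _)

/-- The power saving. -/
theorem exists_saving : ∃ ε : ℝ, 0 < ε ∧ ∃ C : ℝ, ∀ n : ℕ, 2 ≤ n →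
    Computes Set.univ ⊤ (dft n) (L n) ∧ (L n : ℝ) ≤ C * (n * Real.logb 2 n ^ (1 - ε)) := by
  obtain ⟨ε, hε, h⟩ := isBigO_of_not not_noShort
  obtain ⟨C, hC⟩ := explicit_of_isBigO h
  exact ⟨ε, hε, C, fun n hn => ⟨L_spec n, hC n hn⟩⟩

/-- No bound of order `n log n`. -/
theorem no_bound : ¬ ∃ c : ℝ, 0 < c ∧ ∃ N : ℕ, ∀ n : ℕ, N ≤ n →
    c * (n * Real.logb 2 n) ≤ L n := by
  rintro ⟨c, hc, N, h⟩
  exact not_q1 not_noShort ⟨c, hc, Filter.eventually_atTop.2 ⟨N, h⟩⟩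

/-- A short program. -/
theorem exists_short : ∃ m r : ℕ, r < m * 2 ^ (m - 1) ∧ InPlace r (zetaMat m) := by
  have h := not_noShort
  rw [noShort_iff] at h
  push Not at h
  obtain ⟨m, r, h1, h2⟩ := h
  exact ⟨m, r, h2, h1⟩

end Vale.Agent.P344.R2.H527
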