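import Vale.Agent.P344.R2.H527.Copies

/-!
# The orders `R_q = ∏_{i < 2q} ((i + 1) (2q)! 8 + 1)`
-/

set_option linter.unusedSectionVars false

namespace Vale.Agent.P344.R2.H527

open Matrix Vale.Agent.P344.R2.H715

/-- `(2q)! 8`. -/
def cq (q : ℕ) : ℕ := (2 * q).factorial * 8

/-- The coprime factors. -/
def fq (q i : ℕ) : ℕ := (i + 1) * cq q + 1

/-- The product of the factors. -/
def Rq (q : ℕ) : ℕ := ∏ i ∈ Finset.range (2 * q), fq q i

theorem cq_ge (q : ℕ) : 8 ≤ cq q := by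
  unfold cq
  have := Nat.factorial_pos (2 * q)
  omega

theorem cq_pos (q : ℕ) : 0 < cq q := lt_of_lt_of_le (by norm_num) (cq_ge q)

theorem fq_ne (q i : ℕ) : fq q i ≠ 0 := Nat.succ_ne_zero _

theorem cq_le_fq (q i : ℕ) : cq q ≤ fq q i := by
  unfold fq
  nlinarith [cq_pos q]

theorem fq_coprime {q i j : ℕ} (hij : i < j) (hj : j < 2 * q) :
    Nat.Coprime (fq q i) (fq q j) := by
  refine Nat.coprime_mul_succ ?_
  rw [show j + 1 - (i + 1) = j - i by omega]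
  exact (Nat.dvd_factorial (by omega) (by omega)).trans (Dvd.intro _ rfl)

theorem fq_coprime' {q i j : ℕ} (hij : i ≠ j) (hi : i < 2 * q) (hj : j < 2 * q) :
    Nat.Coprime (fq q i) (fq q j) := by
  rcases lt_or_gt_of_ne hij with h | h
  · exact fq_coprime h hj
  · exact (fq_coprime h hi).symm

theorem fq_odd (q i : ℕ) : Nat.Coprime 2 (fq q i) := by
  unfold fq cq
  rw [Nat.coprime_two_left]
  exact ⟨(i + 1) * ((2 * q).factorial * 4), by ring⟩

theorem two_factorial_ge (q : ℕ) : 2 * q + 3 ≤ cq q := by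
  unfold cq
  have := Nat.self_le_factorial (2 * q)
  have := Nat.factorial_pos (2 * q)
  omega

theorem Rq_split (q : ℕ) : Rq q = (∏ i ∈ Finset.range q, fq q i) *
    ∏ i ∈ Finset.range q, fq q (q + i) := by
  unfold Rq
  rw [two_mul, Finset.prod_range_add]

theorem prod_ge {q : ℕ} (g : ℕ → ℕ) (B : ℕ) (h : ∀ i < q, B ≤ g i) :
    B ^ q ≤ ∏ i ∈ Finset.range q, g i := by
  calc B ^ q = ∏ i ∈ Finset.range q, B := by simp
    _ ≤ ∏ i ∈ Finset.range q, g i :=
      Finset.prod_le_prod' fun i hi => h i (Finset.mem_range.1 hi)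

theorem Rq_ge (q : ℕ) : cq q ^ (2 * q) ≤ Rq q := prod_ge _ _ fun i _ => cq_le_fq q i

theorem Rq_pos (q : ℕ) : 0 < Rq q :=
  Finset.prod_pos fun i _ => Nat.pos_of_ne_zero (fq_ne q i)

theorem self_lt_Rq {q : ℕ} (hq : 1 ≤ q) : q < Rq q := by
  calc q < 2 ^ q := Nat.lt_two_pow_self
    _ ≤ 2 ^ (2 * q) := Nat.pow_le_pow_right (by norm_num) (by omega)
    _ ≤ cq q ^ (2 * q) := Nat.pow_le_pow_left (by have := cq_ge q; omega) _
    _ ≤ Rq q := Rq_ge q

theorem cq_succ (q : ℕ) : cq (q + 1) = (2 * q + 1) * (2 * q + 2) * cq q := by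
  unfold cq
  rw [show 2 * (q + 1) = 2 * q + 1 + 1 by ring, Nat.factorial_succ, Nat.factorial_succ]
  ring

theorem fq_succ_le (q i : ℕ) : fq (q + 1) i ≤ (2 * q + 2) ^ 2 * fq q i := by
  unfold fq
  rw [cq_succ]
  have h1 : (2 * q + 1) * (2 * q + 2) ≤ (2 * q + 2) ^ 2 := by nlinarith
  have h2 : 1 ≤ (2 * q + 2) ^ 2 := Nat.one_le_pow _ _ (by omega)
  calc (i + 1) * ((2 * q + 1) * (2 * q + 2) * cq q) + 1
      ≤ (i + 1) * ((2 * q + 2) ^ 2 * cq q) + (2 * q + 2) ^ 2 := by gcongr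
    _ = (2 * q + 2) ^ 2 * ((i + 1) * cq q + 1) := by ring

/-- The ratio of consecutive orders. -/
theorem Rq_succ_le (q : ℕ) :
    Rq (q + 1) ≤ (2 * q + 2) ^ (4 * q) * Rq q * (cq q ^ 4) ^ 2 := by
  have h1 : Rq (q + 1) = (∏ i ∈ Finset.range (2 * q), fq (q + 1) i) *
      (fq (q + 1) (2 * q) * fq (q + 1) (2 * q + 1)) := by
    unfold Rq
    rw [show 2 * (q + 1) = 2 * q + 1 + 1 by ring, Finset.prod_range_succ, Finset.prod_range_succ]
    ring
  have h2 : (∏ i ∈ Finset.range (2 * q), fq (q + 1) i) ≤ (2 * q + 2) ^ (4 * q) * Rq q := by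
    calc (∏ i ∈ Finset.range (2 * q), fq (q + 1) i)
        ≤ ∏ i ∈ Finset.range (2 * q), ((2 * q + 2) ^ 2 * fq q i) :=
          Finset.prod_le_prod' fun i _ => fq_succ_le q i
      _ = (2 * q + 2) ^ (4 * q) * Rq q := by
        rw [Finset.prod_mul_distrib, Finset.prod_const, Finset.card_range, ← pow_mul,
          show 2 * (2 * q) = 4 * q by ring]
        rfl
  have h3 : ∀ i ≤ 2 * q + 1, fq (q + 1) i ≤ cq q ^ 4 := by
    intro i hi
    have h4 := two_factorial_ge q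
    have h5 := cq_pos q
    calc fq (q + 1) i = (i + 1) * ((2 * q + 1) * (2 * q + 2) * cq q) + 1 := by
          unfold fq; rw [cq_succ]
      _ ≤ (2 * q + 2) * ((2 * q + 1) * (2 * q + 2) * cq q) + (2 * q + 1) * (2 * q + 2) * cq q := by
          have h6 : 1 ≤ (2 * q + 1) * (2 * q + 2) * cq q := by
            have : 0 < (2 * q + 1) * (2 * q + 2) * cq q := by positivity
            omega
          exact Nat.add_le_add (Nat.mul_le_mul_right _ (by omega)) h6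
      _ = (2 * q + 3) * ((2 * q + 1) * (2 * q + 2) * cq q) := by ring
      _ ≤ cq q * (cq q * cq q * cq q) :=
          Nat.mul_le_mul h4 (Nat.mul_le_mul_right _ (Nat.mul_le_mul (by omega) (by omega)))
      _ = cq q ^ 4 := by ring
  rw [h1, sq]
  exact Nat.mul_le_mul h2 (Nat.mul_le_mul (h3 _ (by omega)) (h3 _ le_rfl))

theorem two_pow_le_factorial (n : ℕ) : 2 ^ n ≤ 2 * n.factorial := by
  induction n with
  | zero => norm_num
  | succ n ih =>
    rcases Nat.eq_zero_or_pos n with h | h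
    · subst h; norm_num
    · rw [pow_succ, Nat.factorial_succ]
      have : 2 ≤ n + 1 := by omega
      calc 2 ^ n * 2 ≤ (2 * n.factorial) * (n + 1) := Nat.mul_le_mul ih this
        _ = 2 * ((n + 1) * n.factorial) := by ring

theorem pow_le_cq (q : ℕ) : (2 * q + 2) ^ q ≤ cq q ^ 2 := by
  rcases Nat.eq_zero_or_pos q with h | hq
  · subst h
    simp [cq]
  have h1 : q ^ q ≤ (2 * q).factorial := by
    have h2 : q.factorial * (q + 1) ^ q ≤ (q + q).factorial := Nat.factorial_mul_pow_le_factorial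
    have h3 : q ^ q ≤ (q + 1) ^ q := Nat.pow_le_pow_left (by omega) _
    rw [two_mul]
    calc q ^ q ≤ 1 * (q + 1) ^ q := by omega
      _ ≤ q.factorial * (q + 1) ^ q := Nat.mul_le_mul_right _ (Nat.factorial_pos _)
      _ ≤ _ := h2
  have h4 := two_pow_le_factorial (2 * q)
  calc (2 * q + 2) ^ q ≤ (4 * q) ^ q := Nat.pow_le_pow_left (by omega) _
    _ = 2 ^ (2 * q) * q ^ q := by rw [mul_pow, pow_mul]; norm_num
    _ ≤ (2 * (2 * q).factorial) * (2 * q).factorial := Nat.mul_le_mul h4 h1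
    _ ≤ cq q * cq q := by
      unfold cq
      exact Nat.mul_le_mul (by omega) (by omega)
    _ = cq q ^ 2 := by ring

/-- The ratio of consecutive orders, in terms of `cq`. -/
theorem Rq_succ_le' (q : ℕ) : Rq (q + 1) ≤ cq q ^ 16 * Rq q := by
  have h1 := Rq_succ_le q
  have h2 : (2 * q + 2) ^ (4 * q) ≤ cq q ^ 8 := by
    have h3 := Nat.pow_le_pow_left (pow_le_cq q) 4
    rw [← pow_mul, ← pow_mul] at h3
    rw [show 4 * q = q * 4 by ring]
    simpa using h3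
  calc Rq (q + 1) ≤ (2 * q + 2) ^ (4 * q) * Rq q * (cq q ^ 4) ^ 2 := h1
    _ ≤ cq q ^ 8 * Rq q * (cq q ^ 4) ^ 2 := by gcongr
    _ = cq q ^ 16 * Rq q := by ring

theorem cq_le_pow {q : ℕ} (hq : 1 ≤ q) : cq q ≤ 2 ^ (7 * q ^ 2) := by
  unfold cq
  have h1 : (2 * q).factorial ≤ (2 * q) ^ (2 * q) := Nat.factorial_le_pow (2 * q)
  have h2 : (2 * q) ^ (2 * q) ≤ (2 ^ (2 * q)) ^ (2 * q) :=
    Nat.pow_le_pow_left (Nat.lt_two_pow_self).le _
  rw [← pow_mul] at h2
  calc (2 * q).factorial * 8 ≤ 2 ^ (2 * q * (2 * q)) * 2 ^ 3 :=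
        Nat.mul_le_mul (h1.trans h2) (by norm_num)
    _ = 2 ^ (2 * q * (2 * q) + 3) := by rw [pow_add]
    _ ≤ 2 ^ (7 * q ^ 2) := Nat.pow_le_pow_right (by norm_num) (by nlinarith)

/-- Choice of the order `2^k R_q` for a given `n`. -/
theorem exists_order {n : ℕ} (hn : Rq 1 ≤ n) : ∃ q k : ℕ, 1 ≤ q ∧ Rq q ≤ n ∧
    2 * n ≤ 2 ^ k * Rq q ∧ 2 ^ k * Rq q ≤ 4 * n ∧ 2 ^ k ≤ 4 * cq q ^ 16 := by
  classical
  have hex : ∃ q, n < Rq (q + 1) := ⟨n, lt_of_lt_of_le (by omega) (self_lt_Rq (by omega)).le⟩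
  set q := Nat.find hex with hqdef
  have hq : n < Rq (q + 1) := Nat.find_spec hex
  have hq1 : 1 ≤ q := by
    by_contra hcon
    have h0 : q = 0 := by omega
    rw [h0] at hq
    exact absurd hn (not_le.2 hq)
  have hRn : Rq q ≤ n := by
    have h1 := Nat.find_min hex (m := q - 1) (by omega)
    rw [not_lt, show q - 1 + 1 = q by omega] at h1
    exact h1
  have hR0 := Rq_pos q
  -- the power of two
  have hex2 : ∃ k, 2 * n ≤ 2 ^ k * Rq q := by
    refine ⟨2 * n, ?_⟩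
    calc 2 * n ≤ 2 ^ (2 * n) := Nat.lt_two_pow_self.le
      _ = 2 ^ (2 * n) * 1 := by ring
      _ ≤ 2 ^ (2 * n) * Rq q := Nat.mul_le_mul_left _ hR0
  set k := Nat.find hex2 with hkdef
  have hk : 2 * n ≤ 2 ^ k * Rq q := Nat.find_spec hex2
  have hk1 : 1 ≤ k := by
    by_contra hcon
    have h0 : k = 0 := by omega
    rw [h0, pow_zero, one_mul] at hk
    omega
  have hk4 : 2 ^ k * Rq q ≤ 4 * n := by
    have h1 := Nat.find_min hex2 (m := k - 1) (by omega)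
    rw [not_le] at h1
    have h2 : 2 ^ k = 2 * 2 ^ (k - 1) := by
      rw [← pow_succ']
      congr 1
      omega
    rw [h2]
    calc 2 * 2 ^ (k - 1) * Rq q = 2 * (2 ^ (k - 1) * Rq q) := by ring
      _ ≤ 2 * (2 * n) := Nat.mul_le_mul_left _ h1.le
      _ = 4 * n := by ring
  refine ⟨q, k, hq1, hRn, hk, hk4, ?_⟩
  have h3 : 2 ^ k * Rq q ≤ (4 * cq q ^ 16) * Rq q := by
    calc 2 ^ k * Rq q ≤ 4 * n := hk4
      _ ≤ 4 * Rq (q + 1) := Nat.mul_le_mul_left _ hq.le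
      _ ≤ 4 * (cq q ^ 16 * Rq q) := Nat.mul_le_mul_left _ (Rq_succ_le' q)
      _ = (4 * cq q ^ 16) * Rq q := by ring
  exact Nat.le_of_mul_le_mul_right h3 hR0

end Vale.Agent.P344.R2.H527
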